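import Vale.Agent.P153.Strip.PF

/-!
# P153, strips: finiteness of the set of row states, symmetry, connectivity
-/

namespace Vale.Agent.P153.Strip

open Finset

theorem IsRow.lip_iter {N : ℕ} {e : ZMod 2} {q : ℤ → ℤ} (h : IsRow N e q) (p : ℤ) (k : ℕ) :
    |q p - q (p + 2 * k)| ≤ k := by
  induction k with
  | zero => simp
  | succ k ih =>
    have h1 := h.lip (p + 2 * k)
    have h2 := abs_sub_le (q p) (q (p + 2 * k)) (q (p + 2 * k + 2))
    have h3 : p + 2 * ((k + 1 : ℕ) : ℤ) = p + 2 * k + 2 := by push_cast; ring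
    rw [h3]
    push_cast
    linarith

theorem IsRow.bdd {N : ℕ} {e : ZMod 2} {q : ℤ → ℤ} (h : IsRow N e q) (p : ℤ) :
    |q p| ≤ 4 * N + 1 := by
  by_cases hp : 2 * (N : ℤ) < |p|
  · rw [h.off p hp]
    simp
    positivity
  · rw [not_lt, abs_le] at hp
    obtain ⟨k, hk⟩ : ∃ k : ℕ, (k : ℤ) = 2 * N + 1 - p := ⟨(2 * (N : ℤ) + 1 - p).toNat, by omega⟩
    have h1 := h.lip_iter p k
    have h2 : q (p + 2 * k) = 0 := by
      apply h.off
      rw [lt_abs]
      left
      omega
    rw [h2, sub_zero] at h1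
    omega

theorem RowSt.isRow {N : ℕ} (x : RowSt N) : IsRow N x.par x.ht := x.2

theorem RowSt.ext' {N : ℕ} {x y : RowSt N} (h1 : x.par = y.par) (h2 : ∀ p, x.ht p = y.ht p) :
    x = y := by
  apply Subtype.ext
  exact Prod.ext h1 (funext h2)

instance (N : ℕ) : Finite (RowSt N) := by
  classical
  have : Function.Injective (fun x : RowSt N => ((x.par, fun p : Set.Icc (-(2 * (N : ℤ))) (2 * N) =>
      (⟨x.ht p, by
        have := x.isRow.bdd p
        rw [abs_le] at this
        exact Set.mem_Icc.2 this⟩ : Set.Icc (-(4 * (N : ℤ) + 1)) (4 * N + 1))) :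
        ZMod 2 × (Set.Icc (-(2 * (N : ℤ))) (2 * N) → Set.Icc (-(4 * (N : ℤ) + 1)) (4 * N + 1)))) := by
    intro x y hxy
    simp only [Prod.mk.injEq] at hxy
    refine RowSt.ext' hxy.1 fun p => ?_
    by_cases hp : 2 * (N : ℤ) < |p|
    · rw [x.isRow.off p hp, y.isRow.off p hp]
    · rw [not_lt, abs_le] at hp
      have := congrFun hxy.2 ⟨p, Set.mem_Icc.2 ⟨by linarith [hp.1], hp.2⟩⟩
      simpa using this
  exact Finite.of_injective _ this

noncomputable instance (N : ℕ) : Fintype (RowSt N) := Fintype.ofFinite _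

/-- the zero row of parity `e` -/
def zrow (N : ℕ) (e : ZMod 2) : RowSt N :=
  ⟨(e, fun _ => 0), ⟨fun _ _ => rfl, fun _ _ => rfl, fun _ _ => Or.inl rfl, fun _ => by simp⟩⟩

theorem zrow_par (N : ℕ) (e : ZMod 2) : (zrow N e).par = e := rfl

theorem zrow_ht (N : ℕ) (e : ZMod 2) (p : ℤ) : (zrow N e).ht p = 0 := rfl

instance (N : ℕ) : Nonempty (RowSt N) := ⟨zrow N 0⟩

theorem Compat.symm {N : ℕ} {x y : RowSt N} (h : Compat x y) : Compat y x := by
  refine ⟨?_, fun p => ⟨?_, ?_⟩⟩
  · rw [h.1, add_assoc, show (1 : ZMod 2) + 1 = 0 from rfl, add_zero]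
  · have := (h.2 (p + 1)).2
    rw [add_sub_cancel_right] at this
    rwa [abs_sub_comm]
  · have := (h.2 (p - 1)).1
    rw [sub_add_cancel] at this
    rwa [abs_sub_comm]

theorem Amat_symm (N : ℕ) (x y : RowSt N) : Amat N x y = Amat N y x := by
  unfold Amat
  by_cases h : Compat x y
  · rw [if_pos h, if_pos h.symm]
  · rw [if_neg h, if_neg fun h' => h h'.symm]

theorem Amat_nonneg (N : ℕ) (x y : RowSt N) : 0 ≤ Amat N x y := by
  unfold Amat
  split_ifs <;> norm_num

theorem Amat_flip (N : ℕ) (x y : RowSt N) (h : Amat N x y ≠ 0) : y.par = x.par + 1 := by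
  unfold Amat at h
  by_contra hcon
  apply h
  rw [if_neg]
  exact fun h' => hcon h'.1

/-- the median of `a`, `b` and zero -/
def med (a b : ℤ) : ℤ := max (min (max a b) 0) (min a b)

theorem med_zero_right (a : ℤ) : med a 0 = 0 := by
  unfold med
  omega

theorem med_zero_left (a : ℤ) : med 0 a = 0 := by
  unfold med
  omega

/-- one step towards the zero row -/
def flat {N : ℕ} (x : RowSt N) : RowSt N :=
  ⟨(x.par + 1, fun p => med (x.ht (p - 1)) (x.ht (p + 1))), by
    have hx := x.isRow
    have par2 : ∀ p : ℤ, ((p : ZMod 2) ≠ x.par + 1) → ((p + 1 : ℤ) : ZMod 2) ≠ x.par := by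
      intro p hp h
      apply hp
      rw [← h]
      push_cast
      rw [add_assoc, show (1 : ZMod 2) + 1 = 0 from rfl, add_zero]
    refine ⟨fun p hp => ?_, fun p hp => ?_, fun p hp => ?_, fun p => ?_⟩
    · show med (x.ht (p - 1)) (x.ht (p + 1)) = 0
      rw [lt_abs] at hp
      rcases hp with hp | hp
      · rw [hx.off (p + 1) (by rw [lt_abs]; left; omega), med_zero_right]
      · rw [hx.off (p - 1) (by rw [lt_abs]; right; omega), med_zero_left]
    · show med (x.ht (p - 1)) (x.ht (p + 1)) = 0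
      rw [hx.odd (p + 1) (par2 p hp), med_zero_right]
    · show med (x.ht (p - 1)) (x.ht (p + 1)) = 0 ∨ med (x.ht (p - 1)) (x.ht (p + 1)) = 1
      have h1 := hx.lip (p - 1)
      rw [show p - 1 + 2 = p + 1 by ring] at h1
      rw [le_abs] at hp
      have h2 : (x.ht (p + 1) = 0 ∨ x.ht (p + 1) = 1) ∨ (x.ht (p - 1) = 0 ∨ x.ht (p - 1) = 1) := by
        rcases hp with hp | hp
        · left
          exact hx.side (p + 1) (by rw [le_abs]; left; omega)
        · right
          exact hx.side (p - 1) (by rw [le_abs]; right; omega)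
      generalize x.ht (p - 1) = a at h1 h2
      generalize x.ht (p + 1) = b at h1 h2
      unfold med
      rw [abs_le] at h1
      omega
    · show |med (x.ht (p - 1)) (x.ht (p + 1)) - med (x.ht (p + 2 - 1)) (x.ht (p + 2 + 1))| ≤ 1
      have h1 := hx.lip (p - 1)
      have h2 := hx.lip (p + 1)
      rw [show p - 1 + 2 = p + 1 by ring] at h1
      rw [show p + 1 + 2 = p + 2 + 1 by ring] at h2
      rw [show p + 2 - 1 = p + 1 by ring]
      generalize x.ht (p - 1) = a at h1 h2
      generalize x.ht (p + 1) = b at h1 h2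
      generalize x.ht (p + 2 + 1) = c at h1 h2
      unfold med
      rw [abs_le] at *
      omega⟩

theorem flat_par {N : ℕ} (x : RowSt N) : (flat x).par = x.par + 1 := rfl

theorem flat_ht {N : ℕ} (x : RowSt N) (p : ℤ) :
    (flat x).ht p = med (x.ht (p - 1)) (x.ht (p + 1)) := rfl

theorem compat_flat {N : ℕ} (x : RowSt N) : Compat x (flat x) := by
  refine ⟨flat_par x, fun p => ⟨?_, ?_⟩⟩
  · rw [flat_ht, show p + 1 - 1 = p by ring]
    have h1 := x.isRow.lip p
    rw [show p + 2 = p + 1 + 1 by ring] at h1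
    generalize x.ht p = a at h1
    generalize x.ht (p + 1 + 1) = b at h1
    unfold med
    rw [abs_le] at *
    omega
  · rw [flat_ht, show p - 1 + 1 = p by ring]
    have h1 := x.isRow.lip (p - 1 - 1)
    rw [show p - 1 - 1 + 2 = p by ring] at h1
    generalize x.ht p = a at h1
    generalize x.ht (p - 1 - 1) = b at h1
    unfold med
    rw [abs_le] at *
    omega

theorem flat_iter_par {N : ℕ} (x : RowSt N) (k : ℕ) : (flat^[k] x).par = x.par + k := by
  induction k with
  | zero => simp
  | succ k ih =>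
    rw [Function.iterate_succ_apply', flat_par, ih]
    push_cast
    ring

theorem flat_iter_ht {N : ℕ} (x : RowSt N) (k : ℕ) (p : ℤ) (hp : 2 * (N : ℤ) - k < p) :
    (flat^[k] x).ht p = 0 := by
  induction k generalizing p with
  | zero =>
    apply (flat^[0] x).isRow.off
    rw [lt_abs]
    left
    simpa using hp
  | succ k ih =>
    rw [Function.iterate_succ_apply', flat_ht, ih (p + 1) (by push_cast at hp; omega),
      med_zero_right]

theorem flat_iter {N : ℕ} (x : RowSt N) : flat^[4 * N + 1] x = zrow N (x.par + (4 * N + 1 : ℕ)) := by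
  refine RowSt.ext' (by rw [flat_iter_par, zrow_par]) fun p => ?_
  rw [zrow_ht]
  by_cases hp : 2 * (N : ℤ) < |p|
  · exact (flat^[4 * N + 1] x).isRow.off p hp
  · rw [not_lt, abs_le] at hp
    apply flat_iter_ht
    push_cast
    omega

theorem pow_pos_flat {N : ℕ} [DecidableEq (RowSt N)] (x : RowSt N) (k : ℕ) :
    0 < ((Matrix.of (Amat N)) ^ k) x (flat^[k] x) := by
  induction k with
  | zero => simp
  | succ k ih =>
    rw [pow_succ, Matrix.mul_apply, Function.iterate_succ_apply']
    have hnn : ∀ (j : ℕ) (a b : RowSt N), 0 ≤ ((Matrix.of (Amat N)) ^ j) a b := by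
      intro j
      induction j with
      | zero =>
        intro a b
        rw [pow_zero, Matrix.one_apply]
        split_ifs <;> norm_num
      | succ j ihj =>
        intro a b
        rw [pow_succ, Matrix.mul_apply]
        exact Finset.sum_nonneg fun c _ => mul_nonneg (ihj a c) (Amat_nonneg N c b)
    refine lt_of_lt_of_le ?_ (Finset.single_le_sum (f := fun j =>
      ((Matrix.of (Amat N)) ^ k) x j * (Matrix.of (Amat N)) j (flat (flat^[k] x)))
      (fun c _ => mul_nonneg (hnn k x c) (Amat_nonneg N c _)) (Finset.mem_univ (flat^[k] x)))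
    apply mul_pos ih
    rw [Matrix.of_apply]
    unfold Amat
    rw [if_pos (compat_flat _)]
    exact one_pos

theorem pow_nonneg' {N : ℕ} [DecidableEq (RowSt N)] (j : ℕ) (a b : RowSt N) :
    0 ≤ ((Matrix.of (Amat N)) ^ j) a b := by
  induction j generalizing a b with
  | zero =>
    rw [pow_zero, Matrix.one_apply]
    split_ifs <;> norm_num
  | succ j ihj =>
    rw [pow_succ, Matrix.mul_apply]
    exact Finset.sum_nonneg fun c _ => mul_nonneg (ihj a c) (Amat_nonneg N c b)

theorem Amat_bip (N : ℕ) [DecidableEq (RowSt N)] :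
    Bip (Amat N) (RowSt.par (N := N)) (4 * N + 1) where
  symm := Amat_symm N
  nn := Amat_nonneg N
  flip := Amat_flip N
  one_le := by omega
  pos := by
    intro x y hxy
    have hsym : ∀ (j : ℕ) (a b : RowSt N),
        ((Matrix.of (Amat N)) ^ j) a b = ((Matrix.of (Amat N)) ^ j) b a := by
      intro j a b
      have h1 : (Matrix.of (Amat N)).transpose = Matrix.of (Amat N) := by
        ext c d
        rw [Matrix.transpose_apply, Matrix.of_apply, Matrix.of_apply, Amat_symm]
      have h2 : ((Matrix.of (Amat N)) ^ j).transpose = (Matrix.of (Amat N)) ^ j := by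
        rw [Matrix.transpose_pow, h1]
      calc ((Matrix.of (Amat N)) ^ j) a b = ((Matrix.of (Amat N)) ^ j).transpose b a := rfl
        _ = _ := by rw [h2]
    have h1 := pow_pos_flat x (4 * N + 1)
    have h2 := pow_pos_flat y (4 * N + 1)
    rw [flat_iter] at h1 h2
    rw [← hxy, hsym] at h2
    rw [two_mul, pow_add, Matrix.mul_apply]
    refine lt_of_lt_of_le (mul_pos h1 h2) (Finset.single_le_sum (f := fun j =>
      ((Matrix.of (Amat N)) ^ (4 * N + 1)) x j * ((Matrix.of (Amat N)) ^ (4 * N + 1)) j y)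
      (fun c _ => mul_nonneg (pow_nonneg' _ x c) (pow_nonneg' _ c y)) (Finset.mem_univ _))

end Vale.Agent.P153.Strip
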