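import Vale.Agent.P153.Strip.Assoc
import Vale.Agent.P153.Strip.RowFin

/-!
# P153, strips: the Perron data of the strip transfer matrix

The positive eigenvector is log-supermodular on each parity class, and the powers of the transfer
matrix converge.
-/

namespace Vale.Agent.P153.Strip

open Finset Matrix Filter Topology

theorem itA_eq (N : ℕ) [DecidableEq (RowSt N)] (n : ℕ) (x : RowSt N) :
    itA N n x = ((Matrix.of (Amat N)) ^ n).mulVec (fun _ => 1) x := by
  induction n generalizing x with
  | zero => simp [itA]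
  | succ n ih =>
    rw [pow_succ', ← Matrix.mulVec_mulVec]
    have e1 : (Matrix.of (Amat N)).mulVec (((Matrix.of (Amat N)) ^ n).mulVec fun _ => 1) x =
        ∑ y, Amat N x y * ((Matrix.of (Amat N)) ^ n).mulVec (fun _ => 1) y := rfl
    rw [e1]
    show ∑ y, Amat N x y * itA N n y = _
    exact sum_congr rfl fun y _ => by rw [ih y]

/-- **Perron data of the strip.** -/
theorem exists_strip (N : ℕ) [DecidableEq (RowSt N)] :
    ∃ D : PData (RowSt N), D.A = Amat N ∧ D.par = RowSt.par ∧ LS D.psi ∧
      ∀ (v : RowSt N → ℝ) (x : RowSt N),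
        Tendsto (fun n : ℕ => ((Matrix.of (Amat N)) ^ n).mulVec v x / D.lam ^ n -
          D.psi x * ∑ y, (if y.par = x.par + n then D.psi y * v y else 0)) atTop (𝓝 0) := by
  obtain ⟨D, hA, hp, hT⟩ := (Amat_bip N).exists_pdata_tendsto
  refine ⟨D, hA, hp, ?_, hT⟩
  set c : ZMod 2 → ℝ := fun e => ∑ y : RowSt N, (if y.par = e then D.psi y * 1 else 0) with hc
  have hcpos : ∀ e, 0 < c e := by
    intro e
    simp only [hc]
    refine sum_pos' (fun y _ => ?_) ⟨zrow N e, mem_univ _, ?_⟩
    · split_ifs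
      · rw [mul_one]; exact (D.pos y).le
      · exact le_rfl
    · rw [if_pos (zrow_par N e), mul_one]
      exact D.pos _
  have hlim : ∀ x : RowSt N, Tendsto
      (fun n : ℕ => (fun (m : ℕ) (x : RowSt N) => (D.lam ^ m)⁻¹ * itA N m x) (2 * n) x) atTop
      (𝓝 (D.psi x * c x.par)) := by
    intro x
    have h0 : Tendsto (fun n : ℕ => 2 * n) atTop atTop :=
      tendsto_atTop_mono (fun n => by omega : ∀ n : ℕ, n ≤ 2 * n) tendsto_id
    have h1 := (hT (fun _ => 1) x).comp h0
    have h2 : ∀ n : ℕ, ((2 * n : ℕ) : ZMod 2) = 0 := fun n => by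
      rw [ZMod.natCast_eq_zero_iff]; exact dvd_mul_right 2 n
    simp only [Function.comp_def] at h1
    simp only [h2, add_zero] at h1
    have h3 := h1.add_const (D.psi x * c x.par)
    rw [zero_add] at h3
    refine h3.congr fun n => ?_
    simp only [hc]
    rw [itA_eq, sub_add_cancel, div_eq_inv_mul]
  have hls : ∀ n : ℕ, LS (fun x : RowSt N => (D.lam ^ n)⁻¹ * itA N n x) :=
    fun n => (LS.itA n).smul
  exact LS.lim (f := fun (m : ℕ) (x : RowSt N) => (D.lam ^ m)⁻¹ * itA N m x) (k := fun n => 2 * n)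
    hls hcpos hlim

end Vale.Agent.P153.Strip
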