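import Vale.Agent.P153.Strip.Defs

/-!
# P153, strips: the Markov property of the window law, the reflection identity
-/

namespace Vale.Agent.P153.Strip

open Finset MeasureTheory

variable {X : Type*} [Fintype X]

theorem ch_sum_snoc {n : ℕ} (F : (Fin (n + 2) → X) → ℝ) :
    ∑ q, F q = ∑ q : Fin (n + 1) → X, ∑ x, F (Fin.snoc (α := fun _ => X) q x) := by
  rw [← (Fin.snocEquiv (fun _ : Fin (n + 2) => X)).sum_comp, Fintype.sum_prod_type_right]
  rfl

namespace PData

variable (D : PData X)

theorem W_snoc (e : ZMod 2) (n : ℕ) (q : Fin (n + 1) → X) (x : X) :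
    D.W e (n + 1) (Fin.snoc (α := fun _ => X) q x) = D.W e n q * D.P (q (Fin.last n)) x := by
  unfold W
  rw [Fin.prod_univ_castSucc, ← mul_assoc]
  have h0 : (Fin.snoc (α := fun _ => X) q x : Fin (n + 2) → X) 0 = q 0 := by
    have : (0 : Fin (n + 2)) = Fin.castSucc (0 : Fin (n + 1)) := rfl
    rw [this, Fin.snoc_castSucc]
  have h1 : (Fin.snoc (α := fun _ => X) q x : Fin (n + 2) → X) (Fin.last n).castSucc =
      q (Fin.last n) := by
    rw [Fin.snoc_castSucc]
  have h2 : (Fin.snoc (α := fun _ => X) q x : Fin (n + 2) → X) (Fin.last n).succ = x := by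
    rw [Fin.succ_last, Fin.snoc_last]
  rw [h0, h1, h2]
  congr 2
  apply Finset.prod_congr rfl
  intro i _
  rw [Fin.snoc_castSucc, ← Fin.castSucc_succ, Fin.snoc_castSucc]

theorem P_nonneg (x y : X) : 0 ≤ D.P x y :=
  div_nonneg (mul_nonneg (D.nn x y) (D.pos y).le) (mul_pos D.lpos (D.pos x)).le

theorem sum_P (x : X) : ∑ y, D.P x y = 1 := by
  unfold P
  rw [← Finset.sum_div, D.eig x]
  exact div_self (mul_pos D.lpos (D.pos x)).ne'

theorem W_nn (e : ZMod 2) (n : ℕ) (q : Fin (n + 1) → X) : 0 ≤ D.W e n q := by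
  unfold W
  refine mul_nonneg ?_ (Finset.prod_nonneg fun i _ => D.P_nonneg _ _)
  split_ifs
  · exact sq_nonneg _
  · exact le_rfl

/-- The expectation over paths. -/
noncomputable def EE (e : ZMod 2) (n : ℕ) (F : (Fin (n + 1) → X) → ℝ) : ℝ :=
  ∑ q, D.W e n q * F q

theorem EE_snoc (e : ZMod 2) (n : ℕ) (F : (Fin (n + 2) → X) → ℝ) :
    D.EE e (n + 1) F =
      D.EE e n fun q => ∑ x, D.P (q (Fin.last n)) x * F (Fin.snoc (α := fun _ => X) q x) := by
  unfold EE
  rw [ch_sum_snoc]
  apply Finset.sum_congr rfl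
  intro q _
  rw [Finset.mul_sum]
  apply Finset.sum_congr rfl
  intro x _
  rw [D.W_snoc]
  ring

/-- `u` depends only on the rows `0, ..., l`. -/
def DepLe {n : ℕ} (l : ℕ) (u : (Fin (n + 1) → X) → ℝ) : Prop :=
  ∀ q q' : Fin (n + 1) → X, (∀ i : Fin (n + 1), (i : ℕ) ≤ l → q i = q' i) → u q = u q'

theorem EE_one (e : ZMod 2) (n : ℕ) : D.EE e n (fun _ => 1) = 1 := by
  induction n with
  | zero =>
    unfold EE W
    simp only [Finset.univ_eq_empty, Finset.prod_empty, mul_one]
    rw [← (Equiv.funUnique (Fin 1) X).symm.sum_comp]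
    exact D.nrm e
  | succ n ih =>
    rw [D.EE_snoc]
    simp only [mul_one, D.sum_P]
    exact ih

/-- The Markov property. -/
theorem EE_markov (e : ZMod 2) (f : X → ℝ) : ∀ (n : ℕ) (l m : Fin (n + 1)), l ≤ m →
    ∀ u : (Fin (n + 1) → X) → ℝ, DepLe (l : ℕ) u →
      D.EE e n (fun q => u q * f (q m)) =
        D.EE e n (fun q => u q * (D.T)^[(m : ℕ) - l] f (q l)) := by
  intro n
  induction n generalizing f with
  | zero =>
    intro l m hlm u _
    have hl : l = m := Fin.ext (by omega)
    subst hl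
    simp
  | succ n ih =>
    intro l m hlm u hu
    rcases eq_or_lt_of_le hlm with h | hlt
    · subst h
      simp
    -- now `l < m`, so `l ≤ n`
    have hl : (l : ℕ) < n + 1 := lt_of_lt_of_le (Fin.lt_def.1 hlt) (Nat.lt_succ_iff.1 m.2)
    set l' : Fin (n + 1) := ⟨l, hl⟩ with hl'
    have hlc : l = l'.castSucc := Fin.ext rfl
    have hu' : DepLe (l' : ℕ) (fun q : Fin (n + 1) → X => u (Fin.snoc (α := fun _ => X) q (q 0))) := by
      intro q q' hqq
      apply hu
      intro i hi
      have hi2 : (i : ℕ) < n + 1 := lt_of_le_of_lt hi hl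
      have hic : i = (⟨i, hi2⟩ : Fin (n + 1)).castSucc := Fin.ext rfl
      rw [hic, Fin.snoc_castSucc, Fin.snoc_castSucc]
      exact hqq _ hi
    have hux : ∀ (q : Fin (n + 1) → X) (x : X), u (Fin.snoc (α := fun _ => X) q x) =
        u (Fin.snoc (α := fun _ => X) q (q 0)) := by
      intro q x
      apply hu
      intro i hi
      have hi2 : (i : ℕ) < n + 1 := lt_of_le_of_lt hi hl
      have hic : i = (⟨i, hi2⟩ : Fin (n + 1)).castSucc := Fin.ext rfl
      rw [hic, Fin.snoc_castSucc, Fin.snoc_castSucc]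
    -- the right-hand side, last row summed out
    have hR : ∀ g : X → ℝ, D.EE e (n + 1) (fun q => u q * g (q l)) =
        D.EE e n (fun q => u (Fin.snoc (α := fun _ => X) q (q 0)) * g (q l')) := by
      intro g
      rw [D.EE_snoc]
      congr 1
      funext q
      have : ∀ x, D.P (q (Fin.last n)) x * (u (Fin.snoc (α := fun _ => X) q x) *
          g ((Fin.snoc (α := fun _ => X) q x : Fin (n + 2) → X) l)) =
          D.P (q (Fin.last n)) x * (u (Fin.snoc (α := fun _ => X) q (q 0)) * g (q l')) := by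
        intro x
        rw [hux q x, hlc, Fin.snoc_castSucc]
      simp only [this]
      rw [← Finset.sum_mul, D.sum_P, one_mul]
    rw [hR, D.EE_snoc]
    by_cases hm : (m : ℕ) < n + 1
    · set m' : Fin (n + 1) := ⟨m, hm⟩ with hm'
      have hmc : m = m'.castSucc := Fin.ext rfl
      have h1 := ih f l' m' (Fin.le_def.2 (Fin.le_def.1 hlm)) _ hu'
      have h2 : ((m' : ℕ) - (l' : ℕ)) = (m : ℕ) - l := rfl
      rw [h2] at h1
      rw [← h1]
      congr 1
      funext q
      have : ∀ x, D.P (q (Fin.last n)) x * (u (Fin.snoc (α := fun _ => X) q x) *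
          f ((Fin.snoc (α := fun _ => X) q x : Fin (n + 2) → X) m)) =
          D.P (q (Fin.last n)) x * (u (Fin.snoc (α := fun _ => X) q (q 0)) * f (q m')) := by
        intro x
        rw [hux q x, hmc, Fin.snoc_castSucc]
      simp only [this]
      rw [← Finset.sum_mul, D.sum_P, one_mul]
    · have hmn : (m : ℕ) = n + 1 := by
        have := m.2
        omega
      have hmc : m = Fin.last (n + 1) := Fin.ext (by simpa using hmn)
      have h1 := ih (D.T f) l' (Fin.last n) (Fin.le_last _) _ hu'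
      have h2 : (m : ℕ) - l = ((Fin.last n : Fin (n + 1)) : ℕ) - (l' : ℕ) + 1 := by
        have h3 : ((Fin.last n : Fin (n + 1)) : ℕ) = n := rfl
        have h4 : (l' : ℕ) = l := rfl
        rw [h3, h4, hmn]
        omega
      rw [h2, Function.iterate_succ, Function.comp_apply, ← h1]
      congr 1
      funext q
      have : ∀ x, D.P (q (Fin.last n)) x * (u (Fin.snoc (α := fun _ => X) q x) *
          f ((Fin.snoc (α := fun _ => X) q x : Fin (n + 2) → X) m)) =
          u (Fin.snoc (α := fun _ => X) q (q 0)) * (D.P (q (Fin.last n)) x * f x) := by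
        intro x
        rw [hux q x, hmc, Fin.snoc_last]
        ring
      simp only [this]
      rw [← Finset.mul_sum]
      rfl

/-! ### stationarity and reversibility -/

/-- The stationary weight on the states of parity `c`. -/
noncomputable def pi (c : ZMod 2) (x : X) : ℝ := if D.par x = c then D.psi x ^ 2 else 0

theorem sum_pi (c : ZMod 2) : ∑ x, D.pi c x = 1 := D.nrm c

theorem pi_nonneg (c : ZMod 2) (x : X) : 0 ≤ D.pi c x := by
  unfold pi
  split_ifs
  · exact sq_nonneg _
  · exact le_rfl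

theorem T_one : D.T (fun _ => 1) = fun _ => 1 := by
  funext x
  unfold T
  simp only [mul_one, D.sum_P]

theorem T_iter_one (k : ℕ) : (D.T)^[k] (fun _ => 1) = fun _ => 1 := by
  induction k with
  | zero => rfl
  | succ k ih => rw [Function.iterate_succ, Function.comp_apply, D.T_one, ih]

theorem balance (c : ZMod 2) (x y : X) : D.pi c x * D.P x y = D.pi (c + 1) y * D.P y x := by
  by_cases hA : D.A x y = 0
  · have hA' : D.A y x = 0 := by rw [D.symm]; exact hA
    simp [P, hA, hA']
  · have hp := D.flip x y hA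
    have hx := (D.pos x).ne'
    have hy := (D.pos y).ne'
    have hl := D.lpos.ne'
    by_cases hc : D.par x = c
    · have hc' : D.par y = c + 1 := by rw [hp, hc]
      unfold pi P
      rw [if_pos hc, if_pos hc', D.symm y x]
      field_simp
    · have hc' : D.par y ≠ c + 1 := by
        rw [hp]
        intro h
        exact hc (add_right_cancel h)
      unfold pi
      rw [if_neg hc, if_neg hc']
      ring

theorem pi_T (c : ZMod 2) (f g : X → ℝ) :
    ∑ x, D.pi c x * (D.T f x * g x) = ∑ x, D.pi (c + 1) x * (f x * D.T g x) := by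
  have h1 : ∀ x, D.pi c x * (D.T f x * g x) = ∑ y, (D.pi c x * D.P x y) * (f y * g x) := by
    intro x
    unfold T
    rw [Finset.sum_mul, Finset.mul_sum]
    apply Finset.sum_congr rfl
    intro y _
    ring
  have h2 : ∀ y, D.pi (c + 1) y * (f y * D.T g y) =
      ∑ x, (D.pi (c + 1) y * D.P y x) * (f y * g x) := by
    intro y
    unfold T
    rw [Finset.mul_sum, Finset.mul_sum]
    apply Finset.sum_congr rfl
    intro x _
    ring
  simp only [h1, h2]
  rw [Finset.sum_comm]
  apply Finset.sum_congr rfl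
  intro y _
  apply Finset.sum_congr rfl
  intro x _
  rw [D.balance]

theorem pi_T_iter (c : ZMod 2) (k : ℕ) (f g : X → ℝ) :
    ∑ x, D.pi c x * ((D.T)^[k] f x * g x) = ∑ x, D.pi (c + k) x * (f x * (D.T)^[k] g x) := by
  induction k generalizing c g with
  | zero => simp
  | succ k ih =>
    have e1 : (D.T)^[k + 1] f = D.T ((D.T)^[k] f) := by
      rw [Function.iterate_succ']
      rfl
    rw [e1, D.pi_T, ih]
    have e2 : (c + 1 + (k : ZMod 2)) = c + ((k + 1 : ℕ) : ZMod 2) := by
      push_cast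
      ring
    rw [e2]
    rfl

theorem EE_zero_row (e : ZMod 2) (n : ℕ) (f : X → ℝ) :
    D.EE e n (fun q => f (q 0)) = ∑ x, D.pi e x * f x := by
  induction n with
  | zero =>
    unfold EE W
    simp only [Finset.univ_eq_empty, Finset.prod_empty, mul_one]
    rw [← (Equiv.funUnique (Fin 1) X).symm.sum_comp]
    rfl
  | succ n ih =>
    rw [D.EE_snoc, ← ih]
    congr 1
    funext q
    have : ∀ x, D.P (q (Fin.last n)) x * f ((Fin.snoc (α := fun _ => X) q x : Fin (n + 2) → X) 0) =
        D.P (q (Fin.last n)) x * f (q 0) := by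
      intro x
      have h0 : (0 : Fin (n + 2)) = Fin.castSucc (0 : Fin (n + 1)) := rfl
      rw [h0, Fin.snoc_castSucc]
    simp only [this]
    rw [← Finset.sum_mul, D.sum_P, one_mul]

theorem depLe_one {n : ℕ} (l : ℕ) : DepLe (X := X) (n := n) l (fun _ => 1) := fun _ _ _ => rfl

theorem depLe_row {n : ℕ} (l : Fin (n + 1)) (g : X → ℝ) :
    DepLe (X := X) (n := n) (l : ℕ) (fun q => g (q l)) := by
  intro q q' h
  simp only
  rw [h l le_rfl]

/-- The law of one row. -/
theorem EE_row (e : ZMod 2) (n : ℕ) (m : Fin (n + 1)) (g : X → ℝ) :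
    D.EE e n (fun q => g (q m)) = ∑ x, D.pi (e + (m : ℕ)) x * g x := by
  have h1 := D.EE_markov e g n 0 m (Fin.zero_le m) (fun _ => 1) (depLe_one _)
  simp only [one_mul] at h1
  rw [h1, D.EE_zero_row]
  have h2 := D.pi_T_iter e ((m : ℕ) - ((0 : Fin (n + 1)) : ℕ)) g (fun _ => 1)
  rw [D.T_iter_one] at h2
  simp only [mul_one, Fin.val_zero, Nat.sub_zero] at h2 ⊢
  exact h2

/-- The joint law of two rows. -/
theorem EE_two (e : ZMod 2) (n : ℕ) (l m : Fin (n + 1)) (hlm : l ≤ m) (f g : X → ℝ) :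
    D.EE e n (fun q => g (q l) * f (q m)) =
      ∑ x, D.pi (e + (l : ℕ)) x * (g x * (D.T)^[(m : ℕ) - l] f x) := by
  rw [D.EE_markov e f n l m hlm _ (depLe_row l g)]
  exact D.EE_row e n l (fun x => g x * (D.T)^[(m : ℕ) - l] f x)

/-- The reflection identity. -/
theorem EE_mr (e : ZMod 2) (n : ℕ) (l a b k : Fin (n + 1)) (ha : l ≤ a) (hb : l ≤ b)
    (hk : (k : ℕ) + b = 2 * l) (f g : X → ℝ) :
    D.EE e n (fun q => (D.T)^[(a : ℕ) - l] f (q l) * (D.T)^[(b : ℕ) - l] g (q l)) =
      D.EE e n (fun q => f (q a) * g (q k)) := by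
  have ha' := Fin.le_def.1 ha
  have hb' := Fin.le_def.1 hb
  have hka : k ≤ a := Fin.le_def.2 (by omega)
  have h1 : D.EE e n (fun q => f (q a) * g (q k)) =
      ∑ x, D.pi (e + (k : ℕ)) x * (g x * (D.T)^[(a : ℕ) - k] f x) := by
    rw [← D.EE_two e n k a hka f g]
    congr 1
    funext q
    ring
  rw [h1, D.EE_row e n l (fun x => (D.T)^[(a : ℕ) - l] f x * (D.T)^[(b : ℕ) - l] g x)]
  have h2 := D.pi_T_iter (e + (k : ℕ)) ((b : ℕ) - l) ((D.T)^[(a : ℕ) - l] f) g
  have h3 : (D.T)^[(b : ℕ) - l] ((D.T)^[(a : ℕ) - l] f) = (D.T)^[(a : ℕ) - k] f := by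
    rw [← Function.iterate_add_apply]
    congr 1
    omega
  rw [h3] at h2
  have h4 : e + ((k : ℕ) : ZMod 2) + (((b : ℕ) - (l : ℕ) : ℕ) : ZMod 2) = e + ((l : ℕ) : ZMod 2) := by
    rw [add_assoc, ← Nat.cast_add]
    congr 2
    omega
  rw [h4] at h2
  rw [← h2]
  apply Finset.sum_congr rfl
  intro x _
  ring

/-- Invariance of the law of two rows under the reflection in a row. -/
theorem EE_inv (e : ZMod 2) (n : ℕ) (l : ℕ) (a b a' b' : Fin (n + 1)) (ha : (a' : ℕ) + a = 2 * l)
    (hb : (b' : ℕ) + b = 2 * l) (f g : X → ℝ) :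
    D.EE e n (fun q => f (q a') * g (q b')) = D.EE e n (fun q => f (q a) * g (q b)) := by
  have key : ∀ (a b a' b' : Fin (n + 1)), (a' : ℕ) + a = 2 * l → (b' : ℕ) + b = 2 * l → a ≤ b →
      ∀ f g : X → ℝ,
      D.EE e n (fun q => f (q a') * g (q b')) = D.EE e n (fun q => f (q a) * g (q b)) := by
    intro a b a' b' ha hb hab f g
    have hab' := Fin.le_def.1 hab
    have hba : b' ≤ a' := Fin.le_def.2 (by omega)
    rw [D.EE_two e n a b hab g f]
    have h1 : D.EE e n (fun q => f (q a') * g (q b')) =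
        D.EE e n (fun q => g (q b') * f (q a')) := by
      congr 1
      funext q
      ring
    rw [h1, D.EE_two e n b' a' hba f g]
    have h2 := D.pi_T_iter (e + (b' : ℕ)) ((b : ℕ) - a) f g
    have h3 : (a' : ℕ) - b' = (b : ℕ) - a := by omega
    rw [h3]
    have h4 : e + ((b' : ℕ) : ZMod 2) + (((b : ℕ) - (a : ℕ) : ℕ) : ZMod 2) =
        e + ((a : ℕ) : ZMod 2) := by
      have h5 : ((b' : ℕ) + ((b : ℕ) - (a : ℕ))) + a + a = 2 * l + a := by omega
      have h6 : (((((b' : ℕ) + ((b : ℕ) - (a : ℕ))) + a + a : ℕ)) : ZMod 2) =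
          ((2 * l + a : ℕ) : ZMod 2) := by rw [h5]
      have two : (2 : ZMod 2) = 0 := rfl
      push_cast at h6
      rw [two, zero_mul, zero_add] at h6
      have h7 : ((a : ℕ) : ZMod 2) + ((a : ℕ) : ZMod 2) = 0 := by
        rw [← two_mul, two, zero_mul]
      rw [add_assoc, h7, add_zero] at h6
      rw [add_assoc]
      congr 1
    rw [h4] at h2
    rw [← h2]
    apply Finset.sum_congr rfl
    intro x _
    ring
  rcases le_total a b with h | h
  · exact key a b a' b' ha hb h f g
  · have h1 := key b a b' a' hb ha h g f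
    have e1 : ∀ c d : Fin (n + 1), (fun q : Fin (n + 1) → X => f (q c) * g (q d)) =
        fun q => g (q d) * f (q c) := by
      intro c d
      funext q
      ring
    rw [e1 a' b', e1 a b]
    exact h1

end PData

end Vale.Agent.P153.Strip
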