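import Vale.Agent.P153.Strip.Bij
import Vale.Agent.P153.Strip.Chain

/-!
# P153, strips: the law of the window rows of a rectangle converges to the window law
-/

namespace Vale.Agent.P153.Strip

open Finset Vale.Agent.P153.Fv Filter Topology

variable {N : ℕ}

open Classical in
/-- indicator of rows with values in `{0, 1}` -/
noncomputable def zb (N : ℕ) (x : RowSt N) : ℝ := if Bd x then 1 else 0

theorem zb_zrow (e : ZMod 2) : zb N (zrow N e) = 1 := by
  unfold zb
  rw [if_pos]
  exact fun p => Or.inl (zrow_ht N e p)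

theorem zb_nonneg (x : RowSt N) : 0 ≤ zb N x := by
  unfold zb
  split_ifs <;> norm_num

/-- the weight of a path is the indicator of compatibility -/
theorem pw_eq_one {n : ℕ} {q : Fin (n + 1) → RowSt N}
    (h : ∀ i : Fin n, Compat (q i.castSucc) (q i.succ)) : pw (Amat N) q = 1 := by
  unfold pw
  apply Finset.prod_eq_one
  intro i _
  unfold Amat
  rw [if_pos (h i)]

theorem pw_eq_zero {n : ℕ} {q : Fin (n + 1) → RowSt N}
    (h : ¬ ∀ i : Fin n, Compat (q i.castSucc) (q i.succ)) : pw (Amat N) q = 0 := by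
  push Not at h
  obtain ⟨i, hi⟩ := h
  unfold pw
  apply Finset.prod_eq_zero (Finset.mem_univ i)
  unfold Amat
  rw [if_neg hi]

theorem compat_of_pw {n : ℕ} {q : Fin (n + 1) → RowSt N} (h : pw (Amat N) q ≠ 0) :
    ∀ i : Fin n, Compat (q i.castSucc) (q i.succ) := by
  by_contra hcon
  exact h (pw_eq_zero hcon)

/-- the values on the window rows -/
theorem fld_window {M m k : ℕ} (q : Fin (2 * M + m + k + 1) → RowSt N) {v : ℤ × ℤ}
    (hv : |v.2| ≤ M) : fld (-((M + m : ℕ) : ℤ)) q v =
      fld (-(M : ℤ)) (fun i : Fin (2 * M + 1) => q ⟨m + i, by omega⟩) v := by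
  rw [abs_le] at hv
  unfold fld
  rw [dif_pos (by push_cast; omega), dif_pos (by push_cast; omega)]
  have : (v.2 - -((M + m : ℕ) : ℤ)).toNat = m + (v.2 - -(M : ℤ)).toNat := by
    push_cast
    omega
  simp only [this]

open Classical in
/-- sums over the functions of the rectangle of a function of the window rows -/
theorem sum_rect_window (M m k : ℕ) {F : (ℤ × ℤ → ℤ) → ℝ}
    (hF : Dep {v : ℤ × ℤ | |v.2| ≤ M} F) :
    ∑ h ∈ reg (rect N (M + m) (M + k)), F h =
      ∑ q : Fin (2 * M + 1) → RowSt N, F (fld (-(M : ℤ)) q) * pw (Amat N) q *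
        ext (Amat N) (fun x => if x.par = ((-((M + m : ℕ) : ℤ) : ℤ) : ZMod 2) then zb N x else 0)
          m (q 0) * ext (Amat N) (zb N) k (q (Fin.last _)) := by
  rw [← sum_window (Amat N) (Amat_symm N)
    (fun q : Fin (2 * M + 1) → RowSt N => F (fld (-(M : ℤ)) q)) m k
    (fun x => if x.par = ((-((M + m : ℕ) : ℤ) : ℤ) : ZMod 2) then zb N x else 0) (zb N)]
  rw [sum_reg_rect (n := 2 * M + m + k) (by push_cast; ring) F, Finset.sum_filter]
  apply Finset.sum_congr rfl
  intro q _
  have e1 : F (fld (-((M + m : ℕ) : ℤ)) q) =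
      F (fld (-(M : ℤ)) (fun i : Fin (2 * M + 1) => q ⟨m + i, by omega⟩)) :=
    hF _ _ fun v hv => fld_window q hv
  rw [← e1]
  by_cases h : Adm (-((M + m : ℕ) : ℤ)) q
  · rw [if_pos h, if_pos h.1, pw_eq_one h.2.1]
    unfold zb
    rw [if_pos h.2.2.1, if_pos h.2.2.2]
    ring
  · rw [if_neg h]
    by_cases h1 : (q 0).par = ((-((M + m : ℕ) : ℤ) : ℤ) : ZMod 2)
    · by_cases h2 : ∀ i : Fin (2 * M + m + k), Compat (q i.castSucc) (q i.succ)
      · by_cases h3 : Bd (q 0)
        · by_cases h4 : Bd (q (Fin.last _))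
          · exact absurd ⟨h1, h2, h3, h4⟩ h
          · unfold zb
            rw [if_neg h4]
            ring
        · unfold zb
          rw [if_pos h1, if_neg h3]
          ring
      · rw [pw_eq_zero h2]
        ring
    · rw [if_neg h1]
      ring

theorem zmod_two_add_self (a : ZMod 2) : a + a = 0 := by
  have : ∀ a : ZMod 2, a + a = 0 := by decide
  exact this a

theorem ext_par (z : RowSt N → ℝ) (m : ℕ) : ∀ (e : ZMod 2) (x : RowSt N),
    ext (Amat N) (fun x => if x.par = e then z x else 0) m x =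
      if x.par = e + m then ext (Amat N) z m x else 0 := by
  induction m with
  | zero =>
    intro e x
    simp [ext_zero]
  | succ m ih =>
    intro e x
    rw [ext_succ, ext_succ]
    simp only [ih]
    split_ifs with h
    · apply Finset.sum_congr rfl
      intro y _
      by_cases hA : Amat N x y = 0
      · rw [hA]
        ring
      · have hy := Amat_flip N x y hA
        rw [if_pos]
        rw [hy, h]
        push_cast
        have := zmod_two_add_self (1 : ZMod 2)
        linear_combination this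
    · apply Finset.sum_eq_zero
      intro y _
      by_cases hA : Amat N x y = 0
      · rw [hA]
        ring
      · have hy := Amat_flip N x y hA
        rw [if_neg, mul_zero]
        intro h'
        apply h
        rw [hy] at h'
        push_cast
        have := zmod_two_add_self (1 : ZMod 2)
        linear_combination h' - this

theorem ext_eq_mulVec {X : Type*} [Fintype X] [DecidableEq X] (A : X → X → ℝ) (c : X → ℝ)
    (m : ℕ) (x : X) : ext A c m x = ((Matrix.of A) ^ m).mulVec c x := by
  induction m generalizing x with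
  | zero => simp [ext_zero]
  | succ m ih =>
    rw [ext_succ, pow_succ', ← Matrix.mulVec_mulVec]
    simp only [Matrix.mulVec, dotProduct, Matrix.of_apply]
    apply Finset.sum_congr rfl
    intro y _
    rw [ih]
    rfl

/-- product of the transition probabilities along a path -/
theorem prod_P {X : Type*} [Fintype X] (D : PData X) {n : ℕ} (q : Fin (n + 1) → X) :
    (∏ i : Fin n, D.P (q i.castSucc) (q i.succ)) * (D.lam ^ n * D.psi (q 0)) =
      pw D.A q * D.psi (q (Fin.last n)) := by
  induction n with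
  | zero => simp [pw]
  | succ n ih =>
    have h := ih (fun i => q i.castSucc)
    unfold pw at h ⊢
    rw [Fin.prod_univ_castSucc, Fin.prod_univ_castSucc]
    have e1 : ∀ i : Fin n, D.P (q i.castSucc.castSucc) (q i.castSucc.succ)
        = D.P (q (i.castSucc.castSucc)) (q (i.succ.castSucc)) := fun i => rfl
    have e2 : D.P (q (Fin.last n).castSucc) (q (Fin.last n).succ) * D.lam *
        D.psi (q (Fin.last n).castSucc) =
        D.A (q (Fin.last n).castSucc) (q (Fin.last n).succ) * D.psi (q (Fin.last n).succ) := by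
      unfold PData.P
      have h1 := (D.pos (q (Fin.last n).castSucc)).ne'
      have h2 := D.lpos.ne'
      field_simp
    have e3 : (Fin.last n).succ = Fin.last (n + 1) := Fin.succ_last n
    have e4 : (fun i : Fin (n + 1) => q i.castSucc) 0 = q 0 := rfl
    rw [e3] at e2 ⊢
    simp only [Fin.castSucc_zero] at h
    calc _ = (∏ i : Fin n, D.P (q i.castSucc.castSucc) (q i.succ.castSucc)) *
          (D.lam ^ n * D.psi (q 0)) *
          (D.P (q (Fin.last n).castSucc) (q (Fin.last (n + 1))) * D.lam) := by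
            rw [pow_succ]
            simp only [← Fin.castSucc_succ]
            ring
      _ = (∏ i : Fin n, D.A (q i.castSucc.castSucc) (q i.succ.castSucc)) *
          (D.P (q (Fin.last n).castSucc) (q (Fin.last (n + 1))) * D.lam *
            D.psi (q (Fin.last n).castSucc)) := by
            rw [h]
            ring
      _ = _ := by
            rw [e2]
            simp only [← Fin.castSucc_succ]
            ring

theorem W_eq {X : Type*} [Fintype X] (D : PData X) (e : ZMod 2) {n : ℕ} (q : Fin (n + 1) → X) :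
    D.lam ^ n * D.W e n q = pw D.A q * (if D.par (q 0) = e then D.psi (q 0) else 0) *
      D.psi (q (Fin.last n)) := by
  have h := prod_P D q
  unfold PData.W
  split_ifs
  · have h1 := (D.pos (q 0)).ne'
    calc D.lam ^ n * (D.psi (q 0) ^ 2 * ∏ i : Fin n, D.P (q i.castSucc) (q i.succ))
        = ((∏ i : Fin n, D.P (q i.castSucc) (q i.succ)) * (D.lam ^ n * D.psi (q 0))) *
          D.psi (q 0) := by ring
      _ = _ := by rw [h]; ring
  · ring

/-- the Perron data of the strip -/
structure StripData (N : ℕ) (D : PData (RowSt N)) : Prop where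
  hA : D.A = Amat N
  hpar : D.par = RowSt.par
  lim : ∀ (v : RowSt N → ℝ) (x : RowSt N),
    Tendsto (fun n : ℕ => ext (Amat N) v n x / D.lam ^ n -
      D.psi x * ∑ y, (if RowSt.par y = RowSt.par x + n then D.psi y * v y else 0)) atTop (𝓝 0)

theorem exists_stripData (N : ℕ) : ∃ D : PData (RowSt N), StripData N D := by
  classical
  obtain ⟨D, h1, h2, h3⟩ := (Amat_bip N).exists_pdata_tendsto
  refine ⟨D, h1, h2, fun v x => ?_⟩
  simp only [ext_eq_mulVec]
  exact h3 v x

variable {D : PData (RowSt N)}

/-- the constants of the two parities -/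
noncomputable def sc (D : PData (RowSt N)) (e : ZMod 2) : ℝ :=
  ∑ y, (if RowSt.par y = e then D.psi y * zb N y else 0)

theorem sc_pos (D : PData (RowSt N)) (e : ZMod 2) : 0 < sc D e := by
  unfold sc
  apply Finset.sum_pos'
  · intro y _
    split_ifs
    · exact mul_nonneg (D.pos y).le (zb_nonneg y)
    · exact le_rfl
  · refine ⟨zrow N e, Finset.mem_univ _, ?_⟩
    rw [if_pos (zrow_par N e), zb_zrow, mul_one]
    exact D.pos _

/-- the normalised number of extensions -/
noncomputable def un (D : PData (RowSt N)) (m : ℕ) (x : RowSt N) : ℝ :=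
  ext (Amat N) (zb N) m x / D.lam ^ m / sc D (x.par + m)

theorem un_tendsto (hD : StripData N D) (x : RowSt N) :
    Tendsto (fun m => un D m x) atTop (𝓝 (D.psi x)) := by
  obtain ⟨B, hB⟩ : ∃ B : ℝ, ∀ e : ZMod 2, 1 / sc D e ≤ B := by
    refine ⟨∑ e : ZMod 2, 1 / sc D e, fun e => ?_⟩
    exact Finset.single_le_sum (f := fun e : ZMod 2 => 1 / sc D e)
      (fun e _ => (one_div_pos.2 (sc_pos D e)).le) (Finset.mem_univ e)
  have h1 := hD.lim (zb N) x
  have h2 : Tendsto (fun m => |un D m x - D.psi x|) atTop (𝓝 0) := by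
    have h3 : Tendsto (fun m : ℕ => |ext (Amat N) (zb N) m x / D.lam ^ m -
        D.psi x * ∑ y, (if RowSt.par y = RowSt.par x + m then D.psi y * zb N y else 0)| * B)
        atTop (𝓝 0) := by
      have := (h1.abs).mul_const B
      simpa using this
    refine squeeze_zero (fun m => abs_nonneg _) (fun m => ?_) h3
    have hs := sc_pos D (x.par + m)
    have e : un D m x - D.psi x = (ext (Amat N) (zb N) m x / D.lam ^ m -
        D.psi x * sc D (x.par + m)) * (1 / sc D (x.par + m)) := by
      unfold un
      field_simp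
    rw [e, abs_mul]
    have hB' := hB (x.par + m)
    rw [abs_of_pos (one_div_pos.2 hs)]
    exact mul_le_mul_of_nonneg_left hB' (abs_nonneg _)
  have h4 := (tendsto_zero_iff_abs_tendsto_zero _).2 h2
  have h5 := h4.add_const (D.psi x)
  simpa using h5

theorem ext_eq_un (D : PData (RowSt N)) (m : ℕ) (x : RowSt N) :
    ext (Amat N) (zb N) m x = D.lam ^ m * sc D (x.par + m) * un D m x := by
  have h1 := (sc_pos D (x.par + m)).ne'
  have h2 := (pow_pos D.lpos m).ne'
  unfold un
  field_simp

/-- the normalised sum -/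
noncomputable def ns (D : PData (RowSt N)) (M : ℕ) (G : (Fin (2 * M + 1) → RowSt N) → ℝ)
    (m k : ℕ) : ℝ :=
  ∑ q : Fin (2 * M + 1) → RowSt N, G q * pw (Amat N) q *
    (if (q 0).par = M then un D m (q 0) else 0) * un D k (q (Fin.last _))

theorem pw_par {n : ℕ} {q : Fin (n + 1) → RowSt N} (h : pw (Amat N) q ≠ 0) (i : Fin (n + 1)) :
    (q i).par = (q 0).par + (i : ℕ) := by
  have hc := compat_of_pw h
  induction i using Fin.induction with
  | zero => simp
  | succ i ih =>
    rw [(hc i).1, ih]
    simp only [Fin.val_castSucc, Fin.val_succ]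
    push_cast
    ring

theorem sum_rect_ns (D : PData (RowSt N)) (M m k : ℕ) {F : (ℤ × ℤ → ℤ) → ℝ}
    (hF : Dep {v : ℤ × ℤ | |v.2| ≤ M} F) :
    ∑ h ∈ reg (rect N (M + m) (M + k)), F h =
      (D.lam ^ m * sc D (M + m) * (D.lam ^ k * sc D (M + k))) *
        ns D M (fun q => F (fld (-(M : ℤ)) q)) m k := by
  classical
  rw [sum_rect_window M m k hF]
  unfold ns
  rw [Finset.mul_sum]
  apply Finset.sum_congr rfl
  intro q _
  by_cases hp : pw (Amat N) q = 0
  · rw [hp]
    ring
  · rw [ext_par]
    have h2 : ((-((M + m : ℕ) : ℤ) : ℤ) : ZMod 2) + m = M := by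
      push_cast
      have := zmod_two_add_self (M : ZMod 2)
      linear_combination -this
    rw [h2]
    split_ifs with h
    · have h3 : (q (Fin.last _)).par = M := by
        rw [pw_par hp, h]
        simp only [Fin.val_last]
        push_cast
        have := zmod_two_add_self (M : ZMod 2)
        linear_combination this
      rw [ext_eq_un D m, ext_eq_un D k, h, h3]
      ring
    · ring

theorem ns_tendsto (hD : StripData N D) (M : ℕ) (G : (Fin (2 * M + 1) → RowSt N) → ℝ) :
    Tendsto (fun p : ℕ × ℕ => ns D M G p.1 p.2) (atTop ×ˢ atTop)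
      (𝓝 (D.lam ^ (2 * M) * D.EE M (2 * M) G)) := by
  have e : D.lam ^ (2 * M) * D.EE M (2 * M) G = ∑ q : Fin (2 * M + 1) → RowSt N,
      G q * pw (Amat N) q * (if (q 0).par = M then D.psi (q 0) else 0) *
        D.psi (q (Fin.last _)) := by
    unfold PData.EE
    rw [Finset.mul_sum]
    apply Finset.sum_congr rfl
    intro q _
    have := W_eq D M q
    rw [hD.hA, hD.hpar] at this
    rw [← mul_assoc, this]
    ring
  rw [e]
  unfold ns
  apply tendsto_finsetSum
  intro q _
  apply Tendsto.mul
  · apply Tendsto.const_mul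
    split_ifs
    · exact (un_tendsto hD (q 0)).comp tendsto_fst
    · exact tendsto_const_nhds
  · exact (un_tendsto hD (q (Fin.last _))).comp tendsto_snd

/-- the law of the window rows of the rectangle converges to the window law of the strip -/
theorem tendsto_rect (hD : StripData N D) (M : ℕ) {F : (ℤ × ℤ → ℤ) → ℝ}
    (hF : Dep {v : ℤ × ℤ | |v.2| ≤ M} F) :
    Tendsto (fun p : ℕ × ℕ => ev (reg (rect N (M + p.1) (M + p.2))) F) (atTop ×ˢ atTop)
      (𝓝 (D.EE M (2 * M) (fun q => F (fld (-(M : ℤ)) q)))) := by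
  have h1 := ns_tendsto hD M (fun q => F (fld (-(M : ℤ)) q))
  have h2 := ns_tendsto hD M (fun _ => 1)
  rw [D.EE_one, mul_one] at h2
  have hl : D.lam ^ (2 * M) ≠ 0 := (pow_pos D.lpos _).ne'
  have h3 := h1.div h2 hl
  rw [mul_div_cancel_left₀ _ hl] at h3
  refine h3.congr fun p => ?_
  have e1 := sum_rect_ns D M p.1 p.2 hF
  have e2 := sum_rect_ns D M p.1 p.2 (F := fun _ => 1) (dep_const _ 1)
  simp only [sum_const, nsmul_eq_mul, mul_one] at e2
  unfold ev
  rw [e1, e2]
  have h4 : D.lam ^ p.1 * sc D (M + p.1) * (D.lam ^ p.2 * sc D (M + p.2)) ≠ 0 := by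
    have := sc_pos D (M + p.1)
    have := sc_pos D (M + p.2)
    have := pow_pos D.lpos p.1
    have := pow_pos D.lpos p.2
    positivity
  show ns D M (fun q => F (fld (-(M : ℤ)) q)) p.1 p.2 / ns D M (fun _ => 1) p.1 p.2 = _
  rw [mul_div_mul_left _ _ h4]

/-- the same with epsilon -/
theorem exists_rect (hD : StripData N D) (M : ℕ) {F : (ℤ × ℤ → ℤ) → ℝ}
    (hF : Dep {v : ℤ × ℤ | |v.2| ≤ M} F) {ε : ℝ} (hε : 0 < ε) :
    ∃ K0 : ℕ, ∀ K ≥ K0, ∀ K' ≥ K0,
      |ev (reg (rect N K K')) F - D.EE M (2 * M) (fun q => F (fld (-(M : ℤ)) q))| < ε := by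
  have h := tendsto_rect hD M hF
  rw [Metric.tendsto_nhds] at h
  have h1 := h ε hε
  rw [prod_atTop_atTop_eq, eventually_atTop] at h1
  obtain ⟨⟨a, b⟩, hab⟩ := h1
  refine ⟨M + max a b, fun K hK K' hK' => ?_⟩
  have h2 := hab (K - M, K' - M) ⟨by
    show a ≤ K - M
    have := le_max_left a b
    omega, by
    show b ≤ K' - M
    have := le_max_right a b
    omega⟩
  rw [Real.dist_eq] at h2
  simp only at h2
  rwa [show M + (K - M) = K by omega, show M + (K' - M) = K' by omega] at h2

theorem rowf_congr {h g : ℤ × ℤ → ℤ} {j : ℤ} (p : ∀ a, h (a, j) = g (a, j)) :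
    rowf h j = rowf g j := by
  funext x
  unfold rowf
  rw [p]

theorem rst_congr {h g : ℤ × ℤ → ℤ} {j : ℤ} (e : rowf h j = rowf g j) :
    rst N h j = rst N g j := by
  by_cases hh : IsRow N (j : ZMod 2) (rowf h j)
  · have hg : IsRow N (j : ZMod 2) (rowf g j) := e ▸ hh
    refine RowSt.ext' (by rw [rst_par, rst_par]) fun p => ?_
    rw [rst_ht hh, rst_ht hg, e]
  · have hg : ¬ IsRow N (j : ZMod 2) (rowf g j) := e ▸ hh
    unfold rst
    rw [dif_neg hh, dif_neg hg]

/-- functions of the path of the window rows -/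
theorem dep_pth (M : ℕ) (G : (Fin (2 * M + 1) → RowSt N) → ℝ) :
    Dep {v : ℤ × ℤ | |v.2| ≤ M} (fun h => G (pth N (-(M : ℤ)) (2 * M) h)) := by
  intro h g hg
  have : pth N (-(M : ℤ)) (2 * M) h = pth N (-(M : ℤ)) (2 * M) g := by
    funext i
    unfold pth
    apply rst_congr
    apply rowf_congr
    intro a
    apply hg
    show |-(M : ℤ) + (i : ℕ)| ≤ M
    have := i.2
    rw [abs_le]
    omega
  simp only [this]

/-- convergence of functions of the path of the window rows -/
theorem exists_rect_path (hD : StripData N D) (M : ℕ) (G : (Fin (2 * M + 1) → RowSt N) → ℝ)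
    {ε : ℝ} (hε : 0 < ε) :
    ∃ K0 : ℕ, ∀ K ≥ K0, ∀ K' ≥ K0,
      |ev (reg (rect N K K')) (fun h => G (pth N (-(M : ℤ)) (2 * M) h)) -
        D.EE M (2 * M) G| < ε := by
  have h1 := exists_rect hD M (dep_pth (N := N) M G) hε
  have e : D.EE M (2 * M) (fun q => G (pth N (-(M : ℤ)) (2 * M) (fld (-(M : ℤ)) q))) =
      D.EE M (2 * M) G := by
    unfold PData.EE
    apply Finset.sum_congr rfl
    intro q _
    by_cases hq : Chn (-(M : ℤ)) q
    · show D.W M (2 * M) q * G (pth N (-(M : ℤ)) (2 * M) (fld (-(M : ℤ)) q)) = _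
      rw [pth_fld hq]
    · have hW : D.lam ^ (2 * M) * D.W M (2 * M) q = 0 := by
        rw [W_eq, hD.hA, hD.hpar]
        by_cases h2 : ∀ i : Fin (2 * M), Compat (q i.castSucc) (q i.succ)
        · rw [if_neg]
          · ring
          · intro h3
            apply hq
            refine ⟨?_, h2⟩
            rw [h3]
            push_cast
            have := zmod_two_add_self (M : ZMod 2)
            linear_combination this
        · rw [pw_eq_zero h2]
          ring
      have hl : D.lam ^ (2 * M) ≠ 0 := (pow_pos D.lpos _).ne'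
      rw [(mul_eq_zero.1 hW).resolve_left hl]
      ring
  rwa [e] at h1

end Vale.Agent.P153.Strip
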