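import Vale.Agent.P153.Strip.Inst
import Vale.Agent.P153.Strip.Rect
import Vale.Agent.P153.Strip.Psi
import Vale.Agent.P153.GFF.Interface

/-!
# P153, strips: the plane measure is, on each window, a limit of row models
-/

namespace Vale.Agent.P153.Strip

open Finset MeasureTheory Filter Topology

/-- `P` is the local limit along rectangles, for functions of the height differences in a finite
set. -/
def EvLim (P : Measure (ℤ × ℤ → ℤ)) : Prop :=
  ∀ (B : Finset (ℤ × ℤ)) (F : (ℤ × ℤ → ℤ) → ℝ),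
    (∀ φ ψ : ℤ × ℤ → ℤ, (∀ x ∈ B, ∀ y ∈ B, φ x - φ y = ψ x - ψ y) → F φ = F ψ) →
    ∀ ε : ℝ, 0 < ε → ∃ n0 : ℕ, ∀ N ≥ n0, ∀ K ≥ n0, ∀ K' ≥ n0,
      |Vale.Agent.P153.ev (Fv.reg (Fv.rect N K K')) F - ∫ φ, F φ ∂P| ≤ ε

theorem EE_cast {X : Type*} [Fintype X] (D : PData X) {e e' : ZMod 2} (he : e = e') {n n' : ℕ}
    (hn : n = n') (G : ∀ n : ℕ, (Fin (n + 1) → X) → ℝ) :
    D.EE e n (G n) = D.EE e' n' (G n') := by
  subst he hn
  rfl

/-- The strip of half-width `N`. -/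
theorem exists_strip_data (N : ℕ) :
    ∃ D : PData (RowSt N), StripData N D ∧ LS D.psi := by
  classical
  obtain ⟨D, h1, h2, h3, h4⟩ := exists_strip N
  refine ⟨D, ⟨h1, h2, fun v x => ?_⟩, h3⟩
  simp only [ext_eq_mulVec]
  exact h4 v x

/-- Reading of the heights of the even rows. -/
theorem hR_fld {N : ℕ} (D : PData (RowSt N)) (hD : D.A = Amat N) (e : ZMod 2) (H : ℕ) :
    ∀ᵐ q ∂(D.mu e (4 * H)), ∀ p : ℤ × ℤ, -(H : ℤ) ≤ p.1 → p.1 ≤ H → hR H p q =
      ((fld (-((2 * H : ℕ) : ℤ)) (q : Fin (4 * H + 1) → RowSt N) (GFF.ev p.1 p.2) : ℤ) : ℝ) := by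
  rw [ae_all_iff]
  intro p
  by_cases h1 : -(H : ℤ) ≤ p.1 ∧ p.1 ≤ H
  · filter_upwards [hR_ae D hD e H p h1.1 h1.2] with q hq _ _
    rw [hq]
    unfold fld
    rw [dif_pos (by
      simp only [GFF.ev]
      push_cast
      omega)]
    have e1 : (⟨((GFF.ev p.1 p.2).2 - -((2 * H : ℕ) : ℤ)).toNat, by
        simp only [GFF.ev]; push_cast; omega⟩ : Fin (4 * H + 1)) =
        ⟨2 * (p.1 + H).toNat, by omega⟩ := by
      apply Fin.ext
      simp only [GFF.ev]
      push_cast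
      omega
    have e2 : key (GFF.ev p.1 p.2) = 2 * p.2 := by
      simp only [key, GFF.ev]
      ring
    rw [e1, e2]
  · exact ae_of_all _ fun q a b => absurd ⟨a, b⟩ h1

/-- **Strips and the plane.** -/
theorem rowLim {P : Measure (ℤ × ℤ → ℤ)} (hP : EvLim P) :
    Asm.RowLim P (fun p φ => ((φ (GFF.ev p.1 p.2) : ℤ) : ℝ)) 2 := by
  intro H
  choose D hD hls using exists_strip_data
  refine ⟨fun n => Path (RowSt n) (4 * H), fun n => inferInstance,
    fun n => (D n).mu 0 (4 * H), fun n => FR n H, fun n p => hR H p, fun n => inferInstance,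
    fun n => rows_strip (D n) (hD n).hA (hD n).hpar (hls n) 0 H, ?_⟩
  rintro φ ⟨-, S, hS, hφ⟩
  -- the functional of the height function
  set F : (ℤ × ℤ → ℤ) → ℝ := fun h =>
    φ (fun p => ((h (GFF.ev p.1 p.2) : ℤ) : ℝ) - ((h (GFF.ev 0 0) : ℤ) : ℝ)) with hF
  have hdep : Fv.Dep {v : ℤ × ℤ | |v.2| ≤ ((2 * H : ℕ) : ℤ)} F := by
    intro h g hg
    simp only [hF]
    apply hφ
    intro p hp
    have h1 := hS p hp
    rw [hg (GFF.ev p.1 p.2) (by
      show |2 * p.1| ≤ _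
      rw [abs_le]
      push_cast
      omega), hg (GFF.ev 0 0) (by
      show |2 * (0 : ℤ)| ≤ _
      rw [abs_le]
      push_cast
      omega)]
  have hint : ∀ n, ∫ ω, φ (fun p => hR H p ω - hR H (0, 0) ω) ∂((D n).mu 0 (4 * H)) =
      (D n).EE ((2 * H : ℕ) : ZMod 2) (2 * (2 * H))
        (fun q => F (fld (-((2 * H : ℕ) : ℤ)) q)) := by
    intro n
    have e1 := EE_cast (D n) (e := ((2 * H : ℕ) : ZMod 2)) (e' := 0) (by
      push_cast
      have : (2 : ZMod 2) = 0 := by decide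
      rw [this, zero_mul]) (n := 2 * (2 * H)) (n' := 4 * H) (by ring)
      (fun m q => F (fld (-((2 * H : ℕ) : ℤ)) q))
    rw [e1]
    refine Eq.trans ?_ ((D n).integral_mu 0 (4 * H) (fun q => F (fld (-((2 * H : ℕ) : ℤ)) q)))
    apply integral_congr_ae
    filter_upwards [hR_fld (D n) (hD n).hA 0 H] with q hq
    simp only [hF]
    apply hφ
    intro p hp
    rw [hq p (hS p hp).1 (hS p hp).2, hq (0, 0) (by simp) (by simp)]
  rw [Metric.tendsto_atTop]
  intro ε hε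
  obtain ⟨n0, hn0⟩ := hP (insert (GFF.ev 0 0) (S.image fun p => GFF.ev p.1 p.2)) F (by
    intro h g hhg
    simp only [hF]
    apply hφ
    intro p hp
    have h1 := hhg (GFF.ev p.1 p.2) (Finset.mem_insert_of_mem (Finset.mem_image_of_mem _ hp))
      (GFF.ev 0 0) (Finset.mem_insert_self _ _)
    exact_mod_cast h1) (ε / 4) (by positivity)
  refine ⟨n0, fun n hn => ?_⟩
  obtain ⟨K0, hK0⟩ := exists_rect (hD n) (2 * H) hdep (ε := ε / 4) (by positivity)
  have h1 := hn0 n hn (max n0 K0) (le_max_left _ _) (max n0 K0) (le_max_left _ _)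
  have h2 := hK0 (max n0 K0) (le_max_right _ _) (max n0 K0) (le_max_right _ _)
  rw [Real.dist_eq]
  rw [show ∫ ω, φ (fun p => (fun n p => hR H p) n p ω - (fun n p => hR H p) n (0, 0) ω)
    ∂(fun n => (D n).mu 0 (4 * H)) n = _ from hint n]
  rw [abs_le] at h1
  rw [abs_lt] at h2 ⊢
  constructor <;> linarith [h1.1, h1.2, h2.1, h2.2]

end Vale.Agent.P153.Strip
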