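import Vale.Agent.P153.Strip.Lim

/-!
# P153: from patterns to functions

The local limit along rectangles, for patterns of height differences, gives the limit of the
expectations of all functions of the height differences in a finite set.
-/

namespace Vale.Agent.P153.Strip

open Finset MeasureTheory Filter Topology
open Vale.Agent.P153.GFF (Ht Pat LocLim)

/-- `P` is the local limit along rectangles, for patterns. -/
def RectLim (P : Measure (ℤ × ℤ → ℤ)) : Prop :=
  ∀ (B : Finset (ℤ × ℤ)) (a : ℤ × ℤ → ℤ), ∀ ε : ℝ, 0 < ε → ∃ n0 : ℕ,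
    ∀ N ≥ n0, ∀ K ≥ n0, ∀ K' ≥ n0,
      |((Ht (Fv.rect N K K') ∩ Pat B a).ncard : ℝ) / (Ht (Fv.rect N K K')).ncard -
        P.real (Pat B a)| ≤ ε

theorem gff_bc (D : Finset (ℤ × ℤ)) (v : ℤ × ℤ) : GFF.bc D v = Fv.bc D v := by
  classical
  ext a
  by_cases hv : v ∈ D
  · by_cases hv' : v ∈ Fv.inner D
    · rw [Fv.bc_inner hv']
      simp only [GFF.bc, Set.mem_ofPred_eq, Set.mem_univ, iff_true]
      exact ⟨fun h => absurd hv h, fun ⟨w, h1, h2⟩ => absurd (hv'.2 w h1) h2⟩
    · rw [Fv.bc_bd hv hv']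
      simp only [GFF.bc, Set.mem_ofPred_eq, Set.mem_insert_iff, Set.mem_singleton_iff]
      constructor
      · rintro ⟨-, h⟩
        apply h
        by_contra hcon
        push Not at hcon
        exact hv' ⟨hv, hcon⟩
      · exact fun h => ⟨fun h' => absurd hv h', fun _ => h⟩
  · rw [Fv.bc_out hv]
    simp only [GFF.bc, Set.mem_ofPred_eq, Set.mem_singleton_iff]
    exact ⟨fun h => h.1 hv, fun h => ⟨fun _ => h, fun _ => Or.inl h⟩⟩

theorem Ht_eq_reg (D : Finset (ℤ × ℤ)) : Ht D = (Fv.reg D : Set (ℤ × ℤ → ℤ)) := by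
  have : GFF.bc D = Fv.bc D := funext fun v => gff_bc D v
  unfold Ht
  rw [this]
  ext h
  exact (Fv.reg_isLp D h).symm

/-- A function with steps at most one is bounded by the distance to the origin. -/
theorem lip_bound {φ : ℤ × ℤ → ℤ} (hφ : ∀ x y, GFF.Adj x y → |φ x - φ y| ≤ 1) (x : ℤ × ℤ) :
    |φ x - φ (0, 0)| ≤ |x.1| + |x.2| := by
  have h1 : ∀ (n : ℕ) (y : ℤ), |φ ((n : ℤ), y) - φ (0, y)| ≤ n := by
    intro n
    induction n with
    | zero => intro y; simp
    | succ n ih =>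
      intro y
      have := hφ ((n : ℤ) + 1, y) ((n : ℤ), y) (by
        simp [GFF.Adj])
      have h2 := ih y
      push_cast
      calc |φ ((n : ℤ) + 1, y) - φ (0, y)|
          = |(φ ((n : ℤ) + 1, y) - φ ((n : ℤ), y)) + (φ ((n : ℤ), y) - φ (0, y))| := by
            congr 1; ring
        _ ≤ _ := (abs_add_le _ _).trans (by linarith)
  have h2 : ∀ (n : ℕ) (y : ℤ), |φ (-(n : ℤ), y) - φ (0, y)| ≤ n := by
    intro n
    induction n with
    | zero => intro y; simp
    | succ n ih =>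
      intro y
      have := hφ (-(n : ℤ) - 1, y) (-(n : ℤ), y) (by
        simp [GFF.Adj])
      have h2 := ih y
      push_cast
      have e : (-1 + -(n : ℤ), y) = (-(n : ℤ) - 1, y) := by congr 1; ring
      have e' : (-((n : ℤ) + 1), y) = (-(n : ℤ) - 1, y) := by congr 1; ring
      rw [e']
      calc |φ (-(n : ℤ) - 1, y) - φ (0, y)|
          = |(φ (-(n : ℤ) - 1, y) - φ (-(n : ℤ), y)) + (φ (-(n : ℤ), y) - φ (0, y))| := by
            congr 1; ring
        _ ≤ _ := (abs_add_le _ _).trans (by linarith)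
  have h3 : ∀ n : ℕ, |φ (0, (n : ℤ)) - φ (0, 0)| ≤ n := by
    intro n
    induction n with
    | zero => simp
    | succ n ih =>
      have := hφ (0, (n : ℤ) + 1) (0, (n : ℤ)) (by
        simp [GFF.Adj])
      push_cast
      calc |φ (0, (n : ℤ) + 1) - φ (0, 0)|
          = |(φ (0, (n : ℤ) + 1) - φ (0, (n : ℤ))) + (φ (0, (n : ℤ)) - φ (0, 0))| := by
            congr 1; ring
        _ ≤ _ := (abs_add_le _ _).trans (by linarith)
  have h4 : ∀ n : ℕ, |φ (0, -(n : ℤ)) - φ (0, 0)| ≤ n := by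
    intro n
    induction n with
    | zero => simp
    | succ n ih =>
      have := hφ (0, -(n : ℤ) - 1) (0, -(n : ℤ)) (by
        simp [GFF.Adj])
      push_cast
      have e' : ((0 : ℤ), -((n : ℤ) + 1)) = (0, -(n : ℤ) - 1) := by congr 1; ring
      rw [e']
      calc |φ (0, -(n : ℤ) - 1) - φ (0, 0)|
          = |(φ (0, -(n : ℤ) - 1) - φ (0, -(n : ℤ))) + (φ (0, -(n : ℤ)) - φ (0, 0))| := by
            congr 1; ring
        _ ≤ _ := (abs_add_le _ _).trans (by linarith)
  obtain ⟨a, b⟩ := x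
  have h5 : |φ (a, b) - φ (0, b)| ≤ |a| := by
    rcases le_total 0 a with h | h
    · obtain ⟨n, rfl⟩ := Int.eq_ofNat_of_zero_le h
      rw [abs_of_nonneg h]
      exact h1 n b
    · obtain ⟨n, hn⟩ := Int.eq_ofNat_of_zero_le (neg_nonneg.2 h)
      have : a = -(n : ℤ) := by omega
      subst this
      rw [abs_neg, abs_of_nonneg (by positivity : (0 : ℤ) ≤ (n : ℤ))]
      exact h2 n b
  have h6 : |φ (0, b) - φ (0, 0)| ≤ |b| := by
    rcases le_total 0 b with h | h
    · obtain ⟨n, rfl⟩ := Int.eq_ofNat_of_zero_le h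
      rw [abs_of_nonneg h]
      exact h3 n
    · obtain ⟨n, hn⟩ := Int.eq_ofNat_of_zero_le (neg_nonneg.2 h)
      have : b = -(n : ℤ) := by omega
      subst this
      rw [abs_neg, abs_of_nonneg (by positivity : (0 : ℤ) ≤ (n : ℤ))]
      exact h4 n
  calc |φ (a, b) - φ (0, 0)| = |(φ (a, b) - φ (0, b)) + (φ (0, b) - φ (0, 0))| := by
        congr 1; ring
    _ ≤ _ := (abs_add_le _ _).trans (add_le_add h5 h6)

theorem measurableSet_Pat (B : Finset (ℤ × ℤ)) (a : ℤ × ℤ → ℤ) : MeasurableSet (Pat B a) := by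
  have : Pat B a = ⋂ x ∈ B, ⋂ y ∈ B, {φ : ℤ × ℤ → ℤ | φ x - φ y = a x - a y} := by
    ext φ
    simp [Pat]
  rw [this]
  refine Finset.measurableSet_biInter B fun x _ => Finset.measurableSet_biInter B fun y _ => ?_
  exact ((measurable_pi_apply x).sub (measurable_pi_apply y)) (measurableSet_singleton _)

open Classical in
/-- Finitely many patterns suffice for the functions with steps at most one. -/
theorem exists_patterns (B : Finset (ℤ × ℤ)) : ∃ A : Finset (ℤ × ℤ → ℤ),
    ∀ F : (ℤ × ℤ → ℤ) → ℝ,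
    (∀ φ ψ : ℤ × ℤ → ℤ, (∀ x ∈ B, ∀ y ∈ B, φ x - φ y = ψ x - ψ y) → F φ = F ψ) →
    ∀ φ : ℤ × ℤ → ℤ, (∀ x y, GFF.Adj x y → |φ x - φ y| ≤ 1) →
      F φ = ∑ a ∈ A, if φ ∈ Pat (insert (0, 0) B) a then F a else 0 := by
  set B' : Finset (ℤ × ℤ) := insert (0, 0) B with hB'
  set M : ℤ := ∑ x ∈ B', (|x.1| + |x.2|) with hM
  let A : Finset (ℤ × ℤ → ℤ) := ((Fintype.piFinset (fun _ : B' => Finset.Icc (-M) M)).image
    (fun g x => if h : x ∈ B' then g ⟨x, h⟩ else 0)).filter (fun a => a (0, 0) = 0)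
  refine ⟨A, fun F hF φ hφ => ?_⟩
  set r : ℤ × ℤ → ℤ := fun x => if x ∈ B' then φ x - φ (0, 0) else 0 with hr
  have h0 : ((0 : ℤ), (0 : ℤ)) ∈ B' := Finset.mem_insert_self _ _
  have hrA : r ∈ A := by
    simp only [A, Finset.mem_filter, Finset.mem_image, Fintype.mem_piFinset]
    refine ⟨⟨fun x => φ x - φ (0, 0), fun x => ?_, ?_⟩, ?_⟩
    · rw [Finset.mem_Icc]
      have h1 := lip_bound hφ x
      have h2 : |(x : ℤ × ℤ).1| + |(x : ℤ × ℤ).2| ≤ M :=
        Finset.single_le_sum (f := fun x : ℤ × ℤ => |x.1| + |x.2|)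
          (fun y _ => by positivity) x.2
      exact abs_le.1 (h1.trans h2)
    · funext x
      simp only [hr]
      split_ifs <;> rfl
    · simp [hr, h0]
  have key : ∀ a ∈ A, (φ ∈ Pat B' a ↔ a = r) := by
    intro a ha
    simp only [A, Finset.mem_filter, Finset.mem_image, Fintype.mem_piFinset] at ha
    obtain ⟨⟨g, hg, rfl⟩, ha0⟩ := ha
    constructor
    · intro h
      funext x
      simp only [hr]
      split_ifs with hx
      · have h1 := h x hx (0, 0) h0
        rw [ha0, sub_zero] at h1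
        rw [h1]
        simp [hx]
      · rfl
    · intro h x hx y hy
      rw [h]
      simp only [hr, if_pos hx, if_pos hy]
      ring
  have h1 : ∑ a ∈ A, (if φ ∈ Pat B' a then F a else 0) = ∑ a ∈ A, if a = r then F a else 0 :=
    Finset.sum_congr rfl fun a ha => by simp only [key a ha]
  rw [h1, Finset.sum_ite_eq' A r, if_pos hrA]
  apply hF
  intro x hx y hy
  have hx' : x ∈ B' := Finset.mem_insert_of_mem hx
  have hy' : y ∈ B' := Finset.mem_insert_of_mem hy
  simp only [hr, if_pos hx', if_pos hy']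
  ring

/-- **From patterns to functions.** -/
theorem evLim {P : Measure (ℤ × ℤ → ℤ)} [IsProbabilityMeasure P]
    (hl : ∀ᵐ φ ∂P, ∀ x y, GFF.Adj x y → |φ x - φ y| ≤ 1) (hP : RectLim P) : EvLim P := by
  classical
  intro B F hF ε hε
  obtain ⟨A, hA⟩ := exists_patterns B
  set B' : Finset (ℤ × ℤ) := insert (0, 0) B with hB'
  set M : ℝ := 1 + ∑ a ∈ A, |F a| with hM
  have hM0 : 0 < M := by
    have : 0 ≤ ∑ a ∈ A, |F a| := Finset.sum_nonneg fun a _ => abs_nonneg _
    linarith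
  choose n hn using fun a => hP B' a (ε / M) (by positivity)
  refine ⟨A.sup n, fun N hN K hK K' hK' => ?_⟩
  -- the finite volume expectation
  set S := Fv.reg (Fv.rect N K K') with hS
  have e1 : Vale.Agent.P153.ev S F =
      ∑ a ∈ A, F a * (((Ht (Fv.rect N K K') ∩ Pat B' a).ncard : ℝ) /
        (Ht (Fv.rect N K K')).ncard) := by
    have h1 : ∀ φ ∈ S, F φ = ∑ a ∈ A, if φ ∈ Pat B' a then F a else 0 :=
      fun φ hφ => hA F hF φ fun x y hxy => (Fv.mem_reg.1 hφ).2.2 x y hxy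
    unfold Vale.Agent.P153.ev
    rw [Finset.sum_congr rfl h1, Finset.sum_comm, Finset.sum_div]
    refine Finset.sum_congr rfl fun a _ => ?_
    rw [← Finset.sum_filter, Finset.sum_const, nsmul_eq_mul, Ht_eq_reg]
    rw [Set.ncard_coe_finset]
    have h2 : ((S : Set (ℤ × ℤ → ℤ)) ∩ Pat B' a) =
        ((S.filter fun φ => φ ∈ Pat B' a : Finset (ℤ × ℤ → ℤ)) : Set (ℤ × ℤ → ℤ)) := by
      ext φ
      simp
    rw [h2, Set.ncard_coe_finset, mul_comm, mul_div_assoc]
  -- the infinite volume expectation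
  have e2 : ∫ φ, F φ ∂P = ∑ a ∈ A, F a * P.real (Pat B' a) := by
    have h1 : ∀ᵐ φ ∂P, F φ = ∑ a ∈ A, (Pat B' a).indicator (fun _ => F a) φ := by
      filter_upwards [hl] with φ hφ
      rw [hA F hF φ hφ]
      refine Finset.sum_congr rfl fun a _ => ?_
      simp only [Set.indicator_apply]
    rw [integral_congr_ae h1, integral_finsetSum]
    · refine Finset.sum_congr rfl fun a _ => ?_
      rw [integral_indicator_const _ (measurableSet_Pat B' a), smul_eq_mul, mul_comm]
    · intro a _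
      exact (integrable_const _).indicator (measurableSet_Pat B' a)
  rw [e1, e2, ← Finset.sum_sub_distrib]
  calc |∑ a ∈ A, (F a * (((Ht (Fv.rect N K K') ∩ Pat B' a).ncard : ℝ) /
        (Ht (Fv.rect N K K')).ncard) - F a * P.real (Pat B' a))|
      ≤ ∑ a ∈ A, |F a| * (ε / M) := by
        refine (Finset.abs_sum_le_sum_abs _ _).trans (Finset.sum_le_sum fun a ha => ?_)
        rw [← mul_sub, abs_mul]
        refine mul_le_mul_of_nonneg_left ?_ (abs_nonneg _)
        have h0 : n a ≤ A.sup n := Finset.le_sup ha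
        exact hn a N (h0.trans hN) K (h0.trans hK) K' (h0.trans hK')
    _ = (∑ a ∈ A, |F a|) * (ε / M) := by rw [Finset.sum_mul]
    _ ≤ M * (ε / M) := by
        refine mul_le_mul_of_nonneg_right ?_ (by positivity)
        linarith
    _ = ε := by field_simp

/-- The windows of the plane measure are limits of row models. -/
theorem rowLim_of_rectLim {P : Measure (ℤ × ℤ → ℤ)} [IsProbabilityMeasure P]
    (hl : ∀ᵐ φ ∂P, ∀ x y, GFF.Adj x y → |φ x - φ y| ≤ 1) (hP : RectLim P) :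
    Asm.RowLim P (fun p φ => ((φ (GFF.ev p.1 p.2) : ℤ) : ℝ)) 2 := rowLim (evLim hl hP)

/-- The limit along rectangles from a limit along the domains with a property `C`. -/
theorem rectLim {P : Measure (ℤ × ℤ → ℤ)} (C : Finset (ℤ × ℤ) → Prop)
    (h : ∀ (B : Finset (ℤ × ℤ)) (a : ℤ × ℤ → ℤ),
      Tendsto (fun D : Finset (ℤ × ℤ) => ((Ht D ∩ Pat B a).ncard : ℝ) / (Ht D).ncard)
        (atTop ⊓ 𝓟 {D | C D}) (𝓝 (P.real (Pat B a))))
    (hC : ∀ N K K', C (Fv.rect N K K'))
    (hB : ∀ B : Finset (ℤ × ℤ), ∃ n : ℕ, ∀ N K K', n ≤ N → n ≤ K → n ≤ K' →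
      B ⊆ Fv.rect N K K') : RectLim P := by
  intro B a ε hε
  have h1 := (Metric.tendsto_nhds.1 (h B a)) ε hε
  rw [Filter.eventually_inf_principal, Filter.eventually_atTop] at h1
  obtain ⟨D0, hD0⟩ := h1
  obtain ⟨n, hn⟩ := hB D0
  refine ⟨n, fun N hN K hK K' hK' => ?_⟩
  have := hD0 (Fv.rect N K K') (hn N K K' hN hK hK') (hC N K K')
  rw [Real.dist_eq] at this
  exact this.le

end Vale.Agent.P153.Strip
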