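import Mathlib

/-!
# P153, strips: row states, transfer matrix, Perron data, window law

Sites of the triangular lattice are `(a, j) : ℤ × ℤ`; the row is `j` and the key of the site is
`p = 2 * a + j` (twice the horizontal coordinate), so `p` and `j` have the same parity. The
neighbours of `(p, j)` are `(p ± 2, j)` and `(p ± 1, j ± 1)`; the reflection in row `l` is
`(p, j) ↦ (p, 2 * l - j)`. The closed strip of half-width `N` is `|p| ≤ 2 * N`, its side sites are
those with `2 * N - 1 ≤ |p|`, and there `h` is `0` or `1`.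
-/

namespace Vale.Agent.P153.Strip

open Finset MeasureTheory

/-! ### row states -/

/-- `q` is the height of a row of parity `e` as a function of the key. -/
structure IsRow (N : ℕ) (e : ZMod 2) (q : ℤ → ℤ) : Prop where
  off : ∀ p : ℤ, 2 * (N : ℤ) < |p| → q p = 0
  odd : ∀ p : ℤ, (p : ZMod 2) ≠ e → q p = 0
  side : ∀ p : ℤ, 2 * (N : ℤ) - 1 ≤ |p| → q p = 0 ∨ q p = 1
  lip : ∀ p : ℤ, |q p - q (p + 2)| ≤ 1

/-- The row states of the strip of half-width `N`. -/
def RowSt (N : ℕ) : Type := {s : ZMod 2 × (ℤ → ℤ) // IsRow N s.1 s.2}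

/-- The parity of a row state. -/
def RowSt.par {N : ℕ} (x : RowSt N) : ZMod 2 := x.1.1

/-- The height of a row state at the key `p`. -/
def RowSt.ht {N : ℕ} (x : RowSt N) (p : ℤ) : ℤ := x.1.2 p

/-- Two row states can be consecutive rows. -/
def Compat {N : ℕ} (x y : RowSt N) : Prop :=
  y.par = x.par + 1 ∧ ∀ p : ℤ, |x.ht p - y.ht (p + 1)| ≤ 1 ∧ |x.ht p - y.ht (p - 1)| ≤ 1

open Classical in
/-- The transfer matrix. -/
noncomputable def Amat (N : ℕ) (x y : RowSt N) : ℝ := if Compat x y then 1 else 0

/-! ### Perron data and the window law -/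

/-- A symmetric nonnegative kernel on a finite set which changes the parity, with a positive
eigenvector normalised on both parity classes. -/
structure PData (X : Type*) [Fintype X] where
  A : X → X → ℝ
  psi : X → ℝ
  lam : ℝ
  par : X → ZMod 2
  symm : ∀ x y, A x y = A y x
  nn : ∀ x y, 0 ≤ A x y
  pos : ∀ x, 0 < psi x
  lpos : 0 < lam
  eig : ∀ x, ∑ y, A x y * psi y = lam * psi x
  flip : ∀ x y, A x y ≠ 0 → par y = par x + 1
  nrm : ∀ e : ZMod 2, ∑ x, (if par x = e then psi x ^ 2 else 0) = 1

variable {X : Type*} [Fintype X]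

/-- The transition probabilities. -/
noncomputable def PData.P (D : PData X) (x y : X) : ℝ := D.A x y * D.psi y / (D.lam * D.psi x)

/-- The weight of a path of `n + 1` rows whose first row has parity `e`. -/
noncomputable def PData.W (D : PData X) (e : ZMod 2) (n : ℕ) (q : Fin (n + 1) → X) : ℝ :=
  (if D.par (q 0) = e then D.psi (q 0) ^ 2 else 0) *
    ∏ i : Fin n, D.P (q i.castSucc) (q i.succ)

/-- The transition operator. -/
noncomputable def PData.T (D : PData X) (f : X → ℝ) (x : X) : ℝ := ∑ y, D.P x y * f y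

/-- Paths of `n + 1` rows, with all subsets measurable. -/
def Path (X : Type*) (n : ℕ) : Type _ := Fin (n + 1) → X

instance (X : Type*) (n : ℕ) : MeasurableSpace (Path X n) := ⊤

instance (X : Type*) [Fintype X] (n : ℕ) : Fintype (Path X n) :=
  inferInstanceAs (Fintype (Fin (n + 1) → X))

/-- The window law. -/
noncomputable def PData.mu (D : PData X) (e : ZMod 2) (n : ℕ) : Measure (Path X n) :=
  ∑ q : Path X n, ENNReal.ofReal (D.W e n q) • Measure.dirac q

/-- The sigma-algebra of the rows `0, ..., l` of a path. -/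
@[reducible] def Fl (X : Type*) (n : ℕ) (l : ℤ) : MeasurableSpace (Path X n) :=
  MeasurableSpace.comap (fun q : Path X n => fun i : Fin (n + 1) =>
    if (i : ℤ) ≤ l then some (q i) else none) (⊤ : MeasurableSpace (Fin (n + 1) → Option X))

/-! ### the window of rows `-M, ..., M` of a strip -/

/-- The key of a site. -/
def key (v : ℤ × ℤ) : ℤ := 2 * v.1 + v.2

/-- The reflection in row `l`. -/
def rho (l : ℤ) (v : ℤ × ℤ) : ℤ × ℤ := (v.1 + v.2 - l, 2 * l - v.2)

theorem key_rho (l : ℤ) (v : ℤ × ℤ) : key (rho l v) = key v := by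
  simp only [key, rho]; ring

theorem rho_rho (l : ℤ) (v : ℤ × ℤ) : rho l (rho l v) = v := by
  ext <;> simp only [rho] <;> ring

/-- The height at a site in the window of rows `-M, ..., M` (zero outside the window). -/
noncomputable def hw {N : ℕ} (M : ℕ) (v : ℤ × ℤ) (q : Path (RowSt N) (2 * M)) : ℝ :=
  if h : -(M : ℤ) ≤ v.2 ∧ v.2 ≤ M then
    ((q ⟨(v.2 + M).toNat, by omega⟩ : RowSt N).ht (key v) : ℝ) else 0

end Vale.Agent.P153.Strip
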