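import Vale.Agent.P153.Strip.FinCond
import Vale.Agent.P153.Strip.Defs
import Vale.Agent.P153.FkgGen

/-!
# P153, strips: the window law is positively associated given the lower rows
-/

namespace Vale.Agent.P153.Strip

open Finset MeasureTheory Filter
open scoped FinsetFamily Topology

/-! ### weighted FKG inequality on a finite part of a distributive lattice -/

section Lattice

variable {α : Type*} [DistribLattice α]

/-- FKG inequality for a log-supermodular weight supported on a finite set. -/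
theorem fkg_weighted (w F G : α → ℝ) (S : Finset α) (hw0 : ∀ a, 0 ≤ w a)
    (hS : ∀ a, a ∉ S → w a = 0) (hw : ∀ a b, w a * w b ≤ w (a ⊓ b) * w (a ⊔ b))
    (hF : Monotone F) (hG : Monotone G) :
    (∑ a ∈ S, w a * F a) * (∑ a ∈ S, w a * G a) ≤
      (∑ a ∈ S, w a) * ∑ a ∈ S, w a * (F a * G a) := by
  classical
  obtain ⟨M, hM⟩ : ∃ M : ℝ, ∀ a ∈ S, -M ≤ F a := by
    refine ⟨∑ a ∈ S, |F a|, fun a ha => ?_⟩
    have h1 := Finset.single_le_sum (f := fun a => |F a|) (fun _ _ => abs_nonneg _) ha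
    have h2 := neg_abs_le (F a)
    linarith
  obtain ⟨N, hN⟩ : ∃ N : ℝ, ∀ a ∈ S, -N ≤ G a := by
    refine ⟨∑ a ∈ S, |G a|, fun a ha => ?_⟩
    have h1 := Finset.single_le_sum (f := fun a => |G a|) (fun _ _ => abs_nonneg _) ha
    have h2 := neg_abs_le (G a)
    linarith
  let F' : α → ℝ := fun a => max (F a + M) 0
  let G' : α → ℝ := fun a => max (G a + N) 0
  have hF' : Monotone F' := fun a b hab => max_le_max (by linarith [hF hab]) le_rfl
  have hF'0 : ∀ a, 0 ≤ F' a := fun a => le_max_right _ _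
  have hG' : Monotone G' := fun a b hab => max_le_max (by linarith [hG hab]) le_rfl
  have hG'0 : ∀ a, 0 ≤ G' a := fun a => le_max_right _ _
  have hFF : ∀ a ∈ S, F' a = F a + M := fun a ha => max_eq_left (by linarith [hM a ha])
  have hGG : ∀ a ∈ S, G' a = G a + N := fun a ha => max_eq_left (by linarith [hN a ha])
  have key := holley_weighted w (fun a => w a * G' a) F' S S hw0
    (fun a => mul_nonneg (hw0 a) (hG'0 a)) hF'0 hF' hS
    (fun a ha => by rw [hS a ha, zero_mul])
    (by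
      intro a b
      calc w a * (w b * G' b) = (w a * w b) * G' b := by ring
        _ ≤ (w (a ⊓ b) * w (a ⊔ b)) * G' (a ⊔ b) :=
            mul_le_mul (hw a b) (hG' le_sup_right) (hG'0 b)
              (mul_nonneg (hw0 _) (hw0 _))
        _ = w (a ⊓ b) * (w (a ⊔ b) * G' (a ⊔ b)) := by ring)
  have e1 : ∑ a ∈ S, w a * F' a = ∑ a ∈ S, w a * F a + M * ∑ a ∈ S, w a := by
    rw [Finset.mul_sum, ← Finset.sum_add_distrib]
    exact Finset.sum_congr rfl fun a ha => by rw [hFF a ha]; ring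
  have e2 : ∑ a ∈ S, w a * G' a = ∑ a ∈ S, w a * G a + N * ∑ a ∈ S, w a := by
    rw [Finset.mul_sum, ← Finset.sum_add_distrib]
    exact Finset.sum_congr rfl fun a ha => by rw [hGG a ha]; ring
  have e3 : ∑ a ∈ S, w a * G' a * F' a = ∑ a ∈ S, w a * (F a * G a) +
      N * (∑ a ∈ S, w a * F a) + M * (∑ a ∈ S, w a * G a) + M * N * ∑ a ∈ S, w a := by
    rw [Finset.mul_sum, Finset.mul_sum, Finset.mul_sum, ← Finset.sum_add_distrib,
      ← Finset.sum_add_distrib, ← Finset.sum_add_distrib]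
    exact Finset.sum_congr rfl fun a ha => by rw [hFF a ha, hGG a ha]; ring
  rw [e1, e2, e3] at key
  nlinarith [key]

/-- Ahlswede-Daykin for one set closed under both operations. -/
theorem four_closed (f₁ f₂ f₃ f₄ : α → ℝ) (S : Finset α)
    (hinf : ∀ a ∈ S, ∀ b ∈ S, a ⊓ b ∈ S) (hsup : ∀ a ∈ S, ∀ b ∈ S, a ⊔ b ∈ S)
    (h1 : ∀ a, 0 ≤ f₁ a) (h2 : ∀ a, 0 ≤ f₂ a) (h3 : ∀ a, 0 ≤ f₃ a) (h4 : ∀ a, 0 ≤ f₄ a)
    (h : ∀ a b, f₁ a * f₂ b ≤ f₃ (a ⊓ b) * f₄ (a ⊔ b)) :
    (∑ a ∈ S, f₁ a) * (∑ a ∈ S, f₂ a) ≤ (∑ a ∈ S, f₃ a) * ∑ a ∈ S, f₄ a := by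
  classical
  have key := four_functions_theorem f₁ f₂ f₃ f₄ h1 h2 h3 h4 h S S
  refine key.trans (mul_le_mul ?_ ?_ ?_ ?_)
  · refine Finset.sum_le_sum_of_subset_of_nonneg ?_ fun a _ _ => h3 a
    intro a ha
    obtain ⟨b, hb, c, hc, rfl⟩ := Finset.mem_infs.1 ha
    exact hinf b hb c hc
  · refine Finset.sum_le_sum_of_subset_of_nonneg ?_ fun a _ _ => h4 a
    intro a ha
    obtain ⟨b, hb, c, hc, rfl⟩ := Finset.mem_sups.1 ha
    exact hsup b hb c hc
  · exact Finset.sum_nonneg fun a _ => h4 a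
  · exact Finset.sum_nonneg fun a _ => h3 a

end Lattice

/-! ### rows -/

variable {N : ℕ}

theorem IsRow.inf {e : ZMod 2} {s t : ℤ → ℤ} (hs : IsRow N e s) (ht : IsRow N e t) :
    IsRow N e (s ⊓ t) := by
  refine ⟨fun p hp => ?_, fun p hp => ?_, fun p hp => ?_, fun p => ?_⟩
  · simp [hs.off p hp, ht.off p hp]
  · simp [hs.odd p hp, ht.odd p hp]
  · rcases hs.side p hp with h | h <;> rcases ht.side p hp with h' | h' <;>
      simp [Pi.inf_apply, h, h']
  · simp only [Pi.inf_apply]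
    exact (abs_min_sub_min_le_max _ _ _ _).trans (max_le (hs.lip p) (ht.lip p))

theorem IsRow.sup {e : ZMod 2} {s t : ℤ → ℤ} (hs : IsRow N e s) (ht : IsRow N e t) :
    IsRow N e (s ⊔ t) := by
  refine ⟨fun p hp => ?_, fun p hp => ?_, fun p hp => ?_, fun p => ?_⟩
  · simp [hs.off p hp, ht.off p hp]
  · simp [hs.odd p hp, ht.odd p hp]
  · rcases hs.side p hp with h | h <;> rcases ht.side p hp with h' | h' <;>
      simp [Pi.sup_apply, h, h']
  · simp only [Pi.sup_apply]
    exact (abs_max_sub_max_le_max _ _ _ _).trans (max_le (hs.lip p) (ht.lip p))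

open Classical in
/-- extension by zero of a function on row states -/
noncomputable def ex (f : RowSt N → ℝ) (e : ZMod 2) (s : ℤ → ℤ) : ℝ :=
  if h : IsRow N e s then f ⟨(e, s), h⟩ else 0

theorem ex_pos (f : RowSt N → ℝ) {e : ZMod 2} {s : ℤ → ℤ} (h : IsRow N e s) :
    ex f e s = f ⟨(e, s), h⟩ := by
  unfold ex
  rw [dif_pos h]

theorem ex_neg (f : RowSt N → ℝ) {e : ZMod 2} {s : ℤ → ℤ} (h : ¬ IsRow N e s) :
    ex f e s = 0 := by
  unfold ex
  rw [dif_neg h]

theorem ex_nonneg {f : RowSt N → ℝ} (hf : ∀ x, 0 ≤ f x) (e : ZMod 2) (s : ℤ → ℤ) :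
    0 ≤ ex f e s := by
  by_cases h : IsRow N e s
  · rw [ex_pos f h]; exact hf _
  · rw [ex_neg f h]

theorem ex_self (f : RowSt N → ℝ) (x : RowSt N) : ex f x.par x.1.2 = f x := by
  rw [ex_pos f (show IsRow N x.par x.1.2 from x.2)]
  rfl

/-- log-supermodular on each parity class -/
def LS (f : RowSt N → ℝ) : Prop :=
  ∀ (e : ZMod 2) (s t : ℤ → ℤ), ex f e s * ex f e t ≤ ex f e (s ⊓ t) * ex f e (s ⊔ t)

/-- compatibility of consecutive rows, as functions -/
def Cf (s t : ℤ → ℤ) : Prop := ∀ p : ℤ, |s p - t (p + 1)| ≤ 1 ∧ |s p - t (p - 1)| ≤ 1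

theorem Cf.inf {s t s' t' : ℤ → ℤ} (h : Cf s t) (h' : Cf s' t') : Cf (s ⊓ s') (t ⊓ t') :=
  fun p => ⟨(abs_min_sub_min_le_max _ _ _ _).trans (max_le (h p).1 (h' p).1),
    (abs_min_sub_min_le_max _ _ _ _).trans (max_le (h p).2 (h' p).2)⟩

theorem Cf.sup {s t s' t' : ℤ → ℤ} (h : Cf s t) (h' : Cf s' t') : Cf (s ⊔ s') (t ⊔ t') :=
  fun p => ⟨(abs_max_sub_max_le_max _ _ _ _).trans (max_le (h p).1 (h' p).1),
    (abs_max_sub_max_le_max _ _ _ _).trans (max_le (h p).2 (h' p).2)⟩

theorem compat_iff {e e' : ZMod 2} {s t : ℤ → ℤ} (hs : IsRow N e s) (ht : IsRow N e' t) :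
    Compat (N := N) ⟨(e, s), hs⟩ ⟨(e', t), ht⟩ ↔ e' = e + 1 ∧ Cf s t := Iff.rfl

variable [Fintype (RowSt N)]

/-- the finite set of rows of parity `e` -/
noncomputable def Rw (N : ℕ) [Fintype (RowSt N)] (e : ZMod 2) : Finset (ℤ → ℤ) := by
  classical
  exact (univ.filter fun x : RowSt N => x.par = e).image fun x => x.1.2

theorem mem_Rw {e : ZMod 2} {s : ℤ → ℤ} : s ∈ Rw N e ↔ IsRow N e s := by
  classical
  unfold Rw
  simp only [mem_image, mem_filter, mem_univ, true_and]
  constructor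
  · rintro ⟨x, rfl, rfl⟩
    exact x.2
  · intro h
    exact ⟨⟨(e, s), h⟩, rfl, rfl⟩

/-- sum over the states of one parity -/
theorem sum_par (f : RowSt N → ℝ) (e : ZMod 2) :
    (∑ x, if x.par = e then f x else 0) = ∑ s ∈ Rw N e, ex f e s := by
  classical
  rw [← Finset.sum_filter]
  unfold Rw
  rw [Finset.sum_image]
  · refine Finset.sum_congr rfl fun x hx => ?_
    have : x.par = e := (mem_filter.1 hx).2
    rw [← this, ex_self]
  · intro x hx y hy hxy
    have h1 : x.par = e := (mem_filter.1 hx).2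
    have h2 : y.par = e := (mem_filter.1 hy).2
    exact Subtype.ext (Prod.ext (h1.trans h2.symm) hxy)

/-- the transfer matrix preserves log-supermodularity -/
theorem LS.step {f : RowSt N → ℝ} (hf0 : ∀ x, 0 ≤ f x) (hf : LS f) :
    LS (fun x => ∑ y, Amat N x y * f y) := by
  classical
  intro e s t
  have hA : ∀ x y : RowSt N, 0 ≤ Amat N x y := fun x y => by unfold Amat; split_ifs <;> norm_num
  have hnn : ∀ x, 0 ≤ ∑ y, Amat N x y * f y := fun x =>
    Finset.sum_nonneg fun y _ => mul_nonneg (hA x y) (hf0 y)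
  by_cases hs : IsRow N e s
  swap
  · rw [ex_neg _ hs, zero_mul]
    exact mul_nonneg (ex_nonneg hnn _ _) (ex_nonneg hnn _ _)
  by_cases ht : IsRow N e t
  swap
  · rw [ex_neg _ ht, mul_zero]
    exact mul_nonneg (ex_nonneg hnn _ _) (ex_nonneg hnn _ _)
  have key : ∀ u (hu : IsRow N e u), ex (fun x => ∑ y, Amat N x y * f y) e u =
      ∑ v ∈ Rw N (e + 1), (if Cf u v then ex f (e + 1) v else 0) := by
    intro u hu
    rw [ex_pos _ hu]
    have h1 : (∑ y, Amat N ⟨(e, u), hu⟩ y * f y) =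
        ∑ y : RowSt N, if y.par = e + 1 then (if Cf u y.1.2 then f y else 0) else 0 := by
      refine Finset.sum_congr rfl fun y _ => ?_
      unfold Amat
      by_cases h2 : y.par = e + 1
      · by_cases h3 : Cf u y.1.2
        · have h4 : Compat (⟨(e, u), hu⟩ : RowSt N) y := ⟨h2, h3⟩
          rw [if_pos h4, if_pos h2, if_pos h3, one_mul]
        · have h4 : ¬ Compat (⟨(e, u), hu⟩ : RowSt N) y := fun h => h3 h.2
          rw [if_neg h4, if_pos h2, if_neg h3, zero_mul]
      · have h4 : ¬ Compat (⟨(e, u), hu⟩ : RowSt N) y := fun h => h2 h.1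
        rw [if_neg h4, if_neg h2, zero_mul]
    rw [h1, sum_par (fun y => if Cf u y.1.2 then f y else 0)]
    refine Finset.sum_congr rfl fun v hv => ?_
    rw [ex_pos _ (mem_Rw.1 hv)]
    by_cases h5 : Cf u v
    · rw [if_pos h5, ex_pos _ (mem_Rw.1 hv), if_pos h5]
    · rw [if_neg h5, if_neg h5]
  rw [key s hs, key t ht, key _ (hs.inf ht), key _ (hs.sup ht)]
  refine four_closed (fun v => if Cf s v then ex f (e + 1) v else 0)
    (fun v => if Cf t v then ex f (e + 1) v else 0)
    (fun v => if Cf (s ⊓ t) v then ex f (e + 1) v else 0)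
    (fun v => if Cf (s ⊔ t) v then ex f (e + 1) v else 0) (Rw N (e + 1))
    (fun a ha b hb => mem_Rw.2 ((mem_Rw.1 ha).inf (mem_Rw.1 hb)))
    (fun a ha b hb => mem_Rw.2 ((mem_Rw.1 ha).sup (mem_Rw.1 hb)))
    (fun v => ?_) (fun v => ?_) (fun v => ?_) (fun v => ?_) (fun v v' => ?_)
  · split_ifs
    · exact ex_nonneg hf0 _ _
    · exact le_rfl
  · split_ifs
    · exact ex_nonneg hf0 _ _
    · exact le_rfl
  · split_ifs
    · exact ex_nonneg hf0 _ _
    · exact le_rfl
  · split_ifs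
    · exact ex_nonneg hf0 _ _
    · exact le_rfl
  · have r0 : 0 ≤ (if Cf (s ⊓ t) (v ⊓ v') then ex f (e + 1) (v ⊓ v') else 0) *
        (if Cf (s ⊔ t) (v ⊔ v') then ex f (e + 1) (v ⊔ v') else 0) := by
      apply mul_nonneg <;> split_ifs <;> first | exact ex_nonneg hf0 _ _ | exact le_rfl
    by_cases h1 : Cf s v
    swap
    · rw [if_neg h1, zero_mul]; exact r0
    by_cases h2 : Cf t v'
    swap
    · rw [if_neg h2, mul_zero]; exact r0
    rw [if_pos h1, if_pos h2, if_pos (h1.inf h2), if_pos (h1.sup h2)]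
    exact hf (e + 1) v v'

omit [Fintype (RowSt N)] in
theorem LS.one : LS (fun _ : RowSt N => (1 : ℝ)) := by
  intro e s t
  have hnn : ∀ x : RowSt N, (0 : ℝ) ≤ 1 := fun _ => zero_le_one
  by_cases hs : IsRow N e s
  swap
  · rw [ex_neg _ hs, zero_mul]
    exact mul_nonneg (ex_nonneg hnn _ _) (ex_nonneg hnn _ _)
  by_cases ht : IsRow N e t
  swap
  · rw [ex_neg _ ht, mul_zero]
    exact mul_nonneg (ex_nonneg hnn _ _) (ex_nonneg hnn _ _)
  rw [ex_pos _ hs, ex_pos _ ht, ex_pos _ (hs.inf ht), ex_pos _ (hs.sup ht)]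

/-- iterates of the transfer matrix -/
noncomputable def itA (N : ℕ) [Fintype (RowSt N)] : ℕ → RowSt N → ℝ
  | 0 => fun _ => 1
  | n + 1 => fun x => ∑ y, Amat N x y * itA N n y

theorem itA_nonneg (n : ℕ) (x : RowSt N) : 0 ≤ itA N n x := by
  induction n generalizing x with
  | zero => exact zero_le_one
  | succ n ih =>
    refine Finset.sum_nonneg fun y _ => mul_nonneg ?_ (ih y)
    unfold Amat; split_ifs <;> norm_num

theorem LS.itA (n : ℕ) : LS (itA N n) := by
  induction n with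
  | zero => exact LS.one
  | succ n ih => exact LS.step (itA_nonneg n) ih

omit [Fintype (RowSt N)] in
/-- limits of log-supermodular functions, normalised on each parity class -/
theorem LS.lim {f : ℕ → RowSt N → ℝ} (hf : ∀ n, LS (f n)) {g : RowSt N → ℝ} {c : ZMod 2 → ℝ}
    (hc : ∀ e, 0 < c e) {k : ℕ → ℕ}
    (hlim : ∀ x, Tendsto (fun n => f (k n) x) atTop (𝓝 (g x * c x.par))) : LS g := by
  intro e s t
  have hex : ∀ u, Tendsto (fun n => ex (f (k n)) e u) atTop (𝓝 (ex g e u * c e)) := by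
    intro u
    by_cases hu : IsRow N e u
    · simp only [ex_pos _ hu]
      exact hlim ⟨(e, u), hu⟩
    · simp only [ex_neg _ hu, zero_mul]
      exact tendsto_const_nhds
  have h1 := le_of_tendsto_of_tendsto' ((hex s).mul (hex t)) ((hex (s ⊓ t)).mul (hex (s ⊔ t)))
    (fun n => hf (k n) e s t)
  have h2 : 0 < c e * c e := mul_pos (hc e) (hc e)
  have h3 : (ex g e s * ex g e t) * (c e * c e) ≤
      (ex g e (s ⊓ t) * ex g e (s ⊔ t)) * (c e * c e) := by
    calc _ = ex g e s * c e * (ex g e t * c e) := by ring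
      _ ≤ _ := h1
      _ = _ := by ring
  exact le_of_mul_le_mul_right h3 h2

omit [Fintype (RowSt N)] in
theorem LS.smul {f : RowSt N → ℝ} (hf : LS f) {c : ℝ} : LS (fun x => c * f x) := by
  intro e s t
  have h : ∀ u, ex (fun x => c * f x) e u = c * ex f e u := by
    intro u
    by_cases hu : IsRow N e u
    · rw [ex_pos _ hu, ex_pos _ hu]
    · rw [ex_neg _ hu, ex_neg _ hu, mul_zero]
  rw [h, h, h, h]
  have := mul_le_mul_of_nonneg_left (hf e s t) (mul_self_nonneg c)
  nlinarith [this]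


/-! ### the window law -/

/-- the weight of a path without transition probabilities -/
theorem PData.W_eq {X : Type*} [Fintype X] (D : PData X) (e : ZMod 2) (n : ℕ)
    (q : Fin (n + 1) → X) :
    D.W e n q = (if D.par (q 0) = e then D.psi (q 0) else 0) *
      (∏ i : Fin n, D.A (q i.castSucc) (q i.succ)) * D.psi (q (Fin.last n)) / D.lam ^ n := by
  have key : ∀ (n : ℕ) (q : Fin (n + 1) → X), ∏ i : Fin n, D.P (q i.castSucc) (q i.succ) =
      (∏ i : Fin n, D.A (q i.castSucc) (q i.succ)) * D.psi (q (Fin.last n)) /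
        (D.lam ^ n * D.psi (q 0)) := by
    intro n
    induction n with
    | zero =>
      intro q
      have := (D.pos (q 0)).ne'
      simp only [univ_eq_empty, prod_empty, pow_zero, one_mul]
      rw [show Fin.last 0 = 0 from rfl, div_self this]
    | succ n ih =>
      intro q
      rw [Fin.prod_univ_castSucc, Fin.prod_univ_castSucc]
      have h1 := ih (fun i => q i.castSucc)
      have h2 : ∏ i : Fin n, D.P (q i.castSucc.castSucc) (q i.castSucc.succ) =
          ∏ i : Fin n, D.P ((fun i : Fin (n + 1) => q i.castSucc) i.castSucc)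
            ((fun i : Fin (n + 1) => q i.castSucc) i.succ) := rfl
      rw [h2, h1]
      have e1 : (∏ i : Fin n, D.A ((fun i : Fin (n + 1) => q i.castSucc) i.castSucc)
            ((fun i : Fin (n + 1) => q i.castSucc) i.succ)) =
          ∏ i : Fin n, D.A (q i.castSucc.castSucc) (q i.castSucc.succ) := rfl
      rw [e1]
      have e2 : q (Fin.castSucc (0 : Fin (n + 1))) = q 0 := rfl
      rw [e2]
      unfold PData.P
      have h0 := (D.pos (q 0)).ne'
      have h3 := (D.pos (q (Fin.last n).castSucc)).ne'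
      have h4 := D.lpos.ne'
      have e3 : (Fin.last n).succ = Fin.last (n + 1) := rfl
      rw [e3]
      field_simp
      ring
  unfold PData.W
  rw [key]
  have h0 := (D.pos (q 0)).ne'
  have h4 := D.lpos.ne'
  split_ifs
  · field_simp
  · simp

theorem PData.W_nonneg {X : Type*} [Fintype X] (D : PData X) (e : ZMod 2) (n : ℕ)
    (q : Fin (n + 1) → X) : 0 ≤ D.W e n q := by
  rw [D.W_eq]
  refine div_nonneg (mul_nonneg (mul_nonneg ?_ ?_) (D.pos _).le) (pow_pos D.lpos n).le
  · split_ifs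
    · exact (D.pos _).le
    · exact le_rfl
  · exact Finset.prod_nonneg fun i _ => D.nn _ _

theorem PData.par_of_W_ne {X : Type*} [Fintype X] (D : PData X) {e : ZMod 2} {n : ℕ}
    {q : Fin (n + 1) → X} (h : D.W e n q ≠ 0) (i : Fin (n + 1)) :
    D.par (q i) = e + ((i : ℕ) : ZMod 2) := by
  rw [D.W_eq] at h
  have h0 : D.par (q 0) = e := by
    by_contra h'
    apply h
    rw [if_neg h']
    simp
  have h1 : ∀ i : Fin n, D.A (q i.castSucc) (q i.succ) ≠ 0 := by
    intro i h'
    apply h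
    have : ∏ i : Fin n, D.A (q i.castSucc) (q i.succ) = 0 := Finset.prod_eq_zero (mem_univ i) h'
    rw [this]
    simp
  induction i using Fin.induction with
  | zero => simpa using h0
  | succ i ih =>
    rw [D.flip _ _ (h1 i), ih]
    simp only [Fin.val_succ, Fin.val_castSucc, Nat.cast_add, Nat.cast_one]
    ring

instance (X : Type*) (n : ℕ) : MeasurableSingletonClass (Path X n) := ⟨fun _ => trivial⟩

/-- the rows of a path as functions -/
def rows {n : ℕ} (q : Path (RowSt N) n) : Fin (n + 1) → ℤ → ℤ := fun i => (q i).1.2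

/-- the path with given rows -/
def tp {n : ℕ} (e : ZMod 2) (s : Fin (n + 1) → ℤ → ℤ)
    (h : ∀ i : Fin (n + 1), IsRow N (e + ((i : ℕ) : ZMod 2)) (s i)) : Path (RowSt N) n :=
  fun i => ⟨(e + ((i : ℕ) : ZMod 2), s i), h i⟩

omit [Fintype (RowSt N)] in
theorem rows_tp {n : ℕ} (e : ZMod 2) (s : Fin (n + 1) → ℤ → ℤ)
    (h : ∀ i : Fin (n + 1), IsRow N (e + ((i : ℕ) : ZMod 2)) (s i)) : rows (tp e s h) = s := rfl

omit [Fintype (RowSt N)] in
theorem tp_rows {n : ℕ} {e : ZMod 2} {q : Path (RowSt N) n}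
    (h : ∀ i : Fin (n + 1), (q i).par = e + ((i : ℕ) : ZMod 2))
    (h' : ∀ i : Fin (n + 1), IsRow N (e + ((i : ℕ) : ZMod 2)) (rows q i)) :
    tp e (rows q) h' = q := by
  funext i
  exact Subtype.ext (Prod.ext (h i).symm rfl)

open Classical in
/-- extension by zero of a function on paths -/
noncomputable def exP {n : ℕ} (e : ZMod 2) (G : Path (RowSt N) n → ℝ)
    (s : Fin (n + 1) → ℤ → ℤ) : ℝ :=
  if h : ∀ i : Fin (n + 1), IsRow N (e + ((i : ℕ) : ZMod 2)) (s i) then G (tp e s h) else 0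

/-- sums over paths as sums over the lattice of rows -/
theorem sum_path {n : ℕ} (e : ZMod 2) (G : Path (RowSt N) n → ℝ)
    (hG : ∀ q, G q ≠ 0 → ∀ i : Fin (n + 1), (q i).par = e + ((i : ℕ) : ZMod 2)) :
    ∑ q, G q = ∑ s ∈ Fintype.piFinset (fun i : Fin (n + 1) => Rw N (e + ((i : ℕ) : ZMod 2))),
      exP e G s := by
  classical
  have h1 : ∑ q, G q = ∑ q ∈ univ.filter (fun q : Path (RowSt N) n =>
      ∀ i : Fin (n + 1), (q i).par = e + ((i : ℕ) : ZMod 2)), G q := by
    rw [Finset.sum_filter]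
    refine Finset.sum_congr rfl fun q _ => ?_
    by_cases h : G q = 0
    · rw [h]; simp
    · rw [if_pos (hG q h)]
  rw [h1]
  refine Finset.sum_bij (fun q _ => rows q) ?_ ?_ ?_ ?_
  · intro q hq
    rw [Fintype.mem_piFinset]
    intro i
    rw [mem_Rw]
    have := (mem_filter.1 hq).2 i
    have h2 : IsRow N (q i).par (q i).1.2 := (q i).2
    rw [this] at h2
    exact h2
  · intro q hq q' hq' h
    funext i
    exact Subtype.ext (Prod.ext (((mem_filter.1 hq).2 i).trans ((mem_filter.1 hq').2 i).symm)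
      (congrFun h i))
  · intro s hs
    rw [Fintype.mem_piFinset] at hs
    refine ⟨tp e s fun i => mem_Rw.1 (hs i), ?_, rows_tp e s _⟩
    rw [mem_filter]
    exact ⟨mem_univ _, fun i => rfl⟩
  · intro q hq
    have hr : ∀ i : Fin (n + 1), IsRow N (e + ((i : ℕ) : ZMod 2)) (rows q i) := by
      intro i
      have := (mem_filter.1 hq).2 i
      have h2 : IsRow N (q i).par (q i).1.2 := (q i).2
      rw [this] at h2
      exact h2
    unfold exP
    rw [dif_pos hr, tp_rows (mem_filter.1 hq).2 hr]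

omit [Fintype (RowSt N)] in
theorem exP_pos {n : ℕ} {e : ZMod 2} (G : Path (RowSt N) n → ℝ) {s : Fin (n + 1) → ℤ → ℤ}
    (h : ∀ i : Fin (n + 1), IsRow N (e + ((i : ℕ) : ZMod 2)) (s i)) :
    exP e G s = G (tp e s h) := by
  unfold exP
  rw [dif_pos h]

omit [Fintype (RowSt N)] in
theorem exP_neg {n : ℕ} {e : ZMod 2} (G : Path (RowSt N) n → ℝ) {s : Fin (n + 1) → ℤ → ℤ}
    (h : ¬ ∀ i : Fin (n + 1), IsRow N (e + ((i : ℕ) : ZMod 2)) (s i)) :
    exP e G s = 0 := by
  unfold exP
  rw [dif_neg h]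

/-- **Conditional association of the window law.** -/
theorem condAssoc_rows (D : PData (RowSt N)) (hA : D.A = Amat N) (hpar : D.par = RowSt.par)
    (hls : LS D.psi) (e : ZMod 2) (n : ℕ) (l : ℤ) {ι : Type*}
    (φ : ι → (Fin (n + 1) → ℤ → ℤ) → ℝ) (hφ : ∀ i, Monotone (φ i)) :
    CLT.CondAssoc (D.mu e n) (Fl (RowSt N) n l) (fun i q => φ i (rows q)) := by
  classical
  refine condAssoc_of_fibre (Ω := Path (RowSt N) n) (p := fun q => D.W e n q)
    (fun q => D.W_nonneg e n q) _ _ ?_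
  intro y f g hf hg
  set ρ : Path (RowSt N) n → Fin (n + 1) → Option (RowSt N) :=
    fun q i => if (i : ℤ) ≤ l then some (q i) else none with hρ
  set w : Path (RowSt N) n → ℝ := fun q => if ρ q = y then D.W e n q else 0 with hw
  have hw0 : ∀ q, 0 ≤ w q := by
    intro q
    rw [hw]
    dsimp only
    split_ifs
    · exact D.W_nonneg e n q
    · exact le_rfl
  have hwp : ∀ q, w q ≠ 0 → ∀ i : Fin (n + 1), (q i).par = e + ((i : ℕ) : ZMod 2) := by
    intro q hq i
    have h1 : D.W e n q ≠ 0 := by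
      intro h
      apply hq
      rw [hw]
      dsimp only
      rw [h]
      simp
    have := D.par_of_W_ne h1 i
    rw [hpar] at this
    exact this
  have conv : ∀ F : (Fin (n + 1) → ℤ → ℤ) → ℝ,
      (∑ q, if ρ q = y then D.W e n q * F (rows q) else 0) =
      ∑ s ∈ Fintype.piFinset (fun i : Fin (n + 1) => Rw N (e + ((i : ℕ) : ZMod 2))),
        exP e w s * F s := by
    intro F
    have h1 : (∑ q, if ρ q = y then D.W e n q * F (rows q) else 0) =
        ∑ q, w q * F (rows q) := by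
      refine Finset.sum_congr rfl fun q _ => ?_
      rw [hw]
      dsimp only
      split_ifs <;> simp
    rw [h1, sum_path e (fun q => w q * F (rows q)) (fun q hq => hwp q (left_ne_zero_of_mul hq))]
    refine Finset.sum_congr rfl fun s hs => ?_
    have hs' : ∀ i : Fin (n + 1), IsRow N (e + ((i : ℕ) : ZMod 2)) (s i) := fun i =>
      mem_Rw.1 (Fintype.mem_piFinset.1 hs i)
    rw [exP_pos _ hs', exP_pos _ hs', rows_tp]
  have conv1 : (∑ q, if ρ q = y then D.W e n q else 0) =
      ∑ s ∈ Fintype.piFinset (fun i : Fin (n + 1) => Rw N (e + ((i : ℕ) : ZMod 2))),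
        exP e w s := by
    have := conv fun _ => 1
    simpa only [mul_one] using this
  rw [conv (fun s => f fun i => φ i s), conv (fun s => g fun i => φ i s),
    conv (fun s => (f fun i => φ i s) * g fun i => φ i s), conv1]
  refine fkg_weighted (exP e w) _ _ _ ?_ ?_ ?_ ?_ ?_
  · intro s
    by_cases h : ∀ i : Fin (n + 1), IsRow N (e + ((i : ℕ) : ZMod 2)) (s i)
    · rw [exP_pos _ h]; exact hw0 _
    · rw [exP_neg _ h]
  · intro s hs
    refine exP_neg _ fun h => hs ?_
    exact Fintype.mem_piFinset.2 fun i => mem_Rw.2 (h i)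
  · -- log-supermodularity
    intro a b
    have hnn : ∀ s, 0 ≤ exP e w s := by
      intro s
      by_cases h : ∀ i : Fin (n + 1), IsRow N (e + ((i : ℕ) : ZMod 2)) (s i)
      · rw [exP_pos _ h]; exact hw0 _
      · rw [exP_neg _ h]
    by_cases ha : ∀ i : Fin (n + 1), IsRow N (e + ((i : ℕ) : ZMod 2)) (a i)
    swap
    · rw [exP_neg _ ha, zero_mul]; exact mul_nonneg (hnn _) (hnn _)
    by_cases hb : ∀ i : Fin (n + 1), IsRow N (e + ((i : ℕ) : ZMod 2)) (b i)
    swap
    · rw [exP_neg _ hb, mul_zero]; exact mul_nonneg (hnn _) (hnn _)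
    have hab : ∀ i : Fin (n + 1), IsRow N (e + ((i : ℕ) : ZMod 2)) ((a ⊓ b) i) :=
      fun i => (ha i).inf (hb i)
    have hab' : ∀ i : Fin (n + 1), IsRow N (e + ((i : ℕ) : ZMod 2)) ((a ⊔ b) i) :=
      fun i => (ha i).sup (hb i)
    rw [exP_pos _ ha, exP_pos _ hb, exP_pos _ hab, exP_pos _ hab']
    by_cases h1 : ρ (tp e a ha) = y
    swap
    · have : w (tp e a ha) = 0 := by rw [hw]; dsimp only; rw [if_neg h1]
      rw [this, zero_mul]; exact mul_nonneg (hw0 _) (hw0 _)
    by_cases h2 : ρ (tp e b hb) = y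
    swap
    · have : w (tp e b hb) = 0 := by rw [hw]; dsimp only; rw [if_neg h2]
      rw [this, mul_zero]; exact mul_nonneg (hw0 _) (hw0 _)
    have hrow : ∀ i : Fin (n + 1), (i : ℤ) ≤ l → a i = b i := by
      intro i hi
      have h3 : ρ (tp e a ha) i = ρ (tp e b hb) i := by rw [h1, h2]
      rw [hρ] at h3
      dsimp only at h3
      rw [if_pos hi, if_pos hi, Option.some.injEq] at h3
      have := congrArg (fun x : RowSt N => x.1.2) h3
      exact this
    have h3 : ρ (tp e (a ⊓ b) hab) = y := by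
      rw [← h1]
      funext i
      rw [hρ]
      dsimp only
      by_cases hi : (i : ℤ) ≤ l
      · rw [if_pos hi, if_pos hi]
        congr 1
        apply Subtype.ext
        refine Prod.ext rfl ?_
        show a i ⊓ b i = a i
        rw [hrow i hi, inf_idem]
      · rw [if_neg hi, if_neg hi]
    have h4 : ρ (tp e (a ⊔ b) hab') = y := by
      rw [← h1]
      funext i
      rw [hρ]
      dsimp only
      by_cases hi : (i : ℤ) ≤ l
      · rw [if_pos hi, if_pos hi]
        congr 1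
        apply Subtype.ext
        refine Prod.ext rfl ?_
        show a i ⊔ b i = a i
        rw [hrow i hi, sup_idem]
      · rw [if_neg hi, if_neg hi]
    have e1 : ∀ q, ρ q = y → w q = D.W e n q := by
      intro q hq
      rw [hw]
      dsimp only
      rw [if_pos hq]
    rw [e1 _ h1, e1 _ h2, e1 _ h3, e1 _ h4]
    -- the weights
    have hp0 : ∀ (s : Fin (n + 1) → ℤ → ℤ)
        (h : ∀ i : Fin (n + 1), IsRow N (e + ((i : ℕ) : ZMod 2)) (s i)),
        D.W e n (tp e s h) = ex D.psi e (s 0) *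
          (∏ i : Fin n, if Cf (s i.castSucc) (s i.succ) then (1 : ℝ) else 0) *
          ex D.psi (e + (n : ZMod 2)) (s (Fin.last n)) / D.lam ^ n := by
      intro s h
      refine (D.W_eq e n (tp e s h)).trans ?_
      rw [hpar, hA]
      have c1 : RowSt.par (tp e s h 0) = e := by
        show e + (((0 : Fin (n + 1)) : ℕ) : ZMod 2) = e
        simp
      rw [if_pos c1]
      have c2 : D.psi (tp e s h 0) = ex D.psi e (s 0) := by
        have c4 := ex_self D.psi (tp e s h 0)
        rw [c1] at c4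
        exact c4.symm
      have c3 : D.psi (tp e s h (Fin.last n)) = ex D.psi (e + (n : ZMod 2)) (s (Fin.last n)) := by
        have c4 := ex_self D.psi (tp e s h (Fin.last n))
        have c5 : RowSt.par (tp e s h (Fin.last n)) = e + (n : ZMod 2) := by
          show e + (((Fin.last n : Fin (n + 1)) : ℕ) : ZMod 2) = e + n
          rw [Fin.val_last]
        rw [c5] at c4
        exact c4.symm
      rw [c2, c3]
      congr 3
      refine Finset.prod_congr rfl fun i _ => ?_
      unfold Amat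
      have c6 : Compat (tp e s h i.castSucc) (tp e s h i.succ) ↔
          Cf (s i.castSucc) (s i.succ) := by
        constructor
        · intro c; exact c.2
        · intro c
          refine ⟨?_, c⟩
          show e + (((i.succ : Fin (n + 1)) : ℕ) : ZMod 2) =
            e + (((i.castSucc : Fin (n + 1)) : ℕ) : ZMod 2) + 1
          simp only [Fin.val_succ, Fin.val_castSucc, Nat.cast_add, Nat.cast_one]
          ring
      by_cases c7 : Cf (s i.castSucc) (s i.succ)
      · rw [if_pos c7, if_pos (c6.2 c7)]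
      · rw [if_neg c7, if_neg (fun c => c7 (c6.1 c))]
    rw [hp0 _ ha, hp0 _ hb, hp0 _ hab, hp0 _ hab']
    have hl := pow_pos D.lpos n
    rw [div_mul_div_comm, div_mul_div_comm]
    refine div_le_div_of_nonneg_right ?_ (mul_pos hl hl).le
    have psi0 : ∀ x, 0 ≤ D.psi x := fun x => (D.pos x).le
    have q1 := hls e (a 0) (b 0)
    have q2 := hls (e + (n : ZMod 2)) (a (Fin.last n)) (b (Fin.last n))
    have q3 : (∏ i : Fin n, if Cf (a i.castSucc) (a i.succ) then (1 : ℝ) else 0) *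
        (∏ i : Fin n, if Cf (b i.castSucc) (b i.succ) then (1 : ℝ) else 0) ≤
        (∏ i : Fin n, if Cf ((a ⊓ b) i.castSucc) ((a ⊓ b) i.succ) then (1 : ℝ) else 0) *
        (∏ i : Fin n, if Cf ((a ⊔ b) i.castSucc) ((a ⊔ b) i.succ) then (1 : ℝ) else 0) := by
      rw [← Finset.prod_mul_distrib, ← Finset.prod_mul_distrib]
      refine Finset.prod_le_prod (fun i _ => ?_) (fun i _ => ?_)
      · apply mul_nonneg <;> split_ifs <;> norm_num
      · have r0 : (0 : ℝ) ≤ (if Cf ((a ⊓ b) i.castSucc) ((a ⊓ b) i.succ) then (1 : ℝ) else 0) *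
            (if Cf ((a ⊔ b) i.castSucc) ((a ⊔ b) i.succ) then (1 : ℝ) else 0) := by
          apply mul_nonneg <;> split_ifs <;> norm_num
        by_cases d1 : Cf (a i.castSucc) (a i.succ)
        swap
        · rw [if_neg d1, zero_mul]; exact r0
        by_cases d2 : Cf (b i.castSucc) (b i.succ)
        swap
        · rw [if_neg d2, mul_zero]; exact r0
        have d3 : Cf ((a ⊓ b) i.castSucc) ((a ⊓ b) i.succ) := d1.inf d2
        have d4 : Cf ((a ⊔ b) i.castSucc) ((a ⊔ b) i.succ) := d1.sup d2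
        rw [if_pos d1, if_pos d2, if_pos d3, if_pos d4]
    have z1 : 0 ≤ ex D.psi e ((a ⊓ b) 0) * ex D.psi e ((a ⊔ b) 0) :=
      mul_nonneg (ex_nonneg psi0 _ _) (ex_nonneg psi0 _ _)
    have z2 : 0 ≤ ex D.psi (e + (n : ZMod 2)) (a (Fin.last n)) *
        ex D.psi (e + (n : ZMod 2)) (b (Fin.last n)) :=
      mul_nonneg (ex_nonneg psi0 _ _) (ex_nonneg psi0 _ _)
    have z3 : (0 : ℝ) ≤ (∏ i : Fin n, if Cf (a i.castSucc) (a i.succ) then (1 : ℝ) else 0) *
        (∏ i : Fin n, if Cf (b i.castSucc) (b i.succ) then (1 : ℝ) else 0) := by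
      apply mul_nonneg <;> refine Finset.prod_nonneg fun i _ => ?_ <;> split_ifs <;> norm_num
    have z4 := mul_le_mul q1 q3 z3 z1
    have z5 : 0 ≤ ex D.psi e ((a ⊓ b) 0) * ex D.psi e ((a ⊔ b) 0) *
        ((∏ i : Fin n, if Cf ((a ⊓ b) i.castSucc) ((a ⊓ b) i.succ) then (1 : ℝ) else 0) *
        (∏ i : Fin n, if Cf ((a ⊔ b) i.castSucc) ((a ⊔ b) i.succ) then (1 : ℝ) else 0)) :=
      mul_nonneg z1 (z3.trans q3)
    have z6 := mul_le_mul z4 q2 z2 z5
    calc _ = ex D.psi e (a 0) * ex D.psi e (b 0) *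
          ((∏ i : Fin n, if Cf (a i.castSucc) (a i.succ) then (1 : ℝ) else 0) *
          (∏ i : Fin n, if Cf (b i.castSucc) (b i.succ) then (1 : ℝ) else 0)) *
          (ex D.psi (e + (n : ZMod 2)) (a (Fin.last n)) *
          ex D.psi (e + (n : ZMod 2)) (b (Fin.last n))) := by ring
      _ ≤ _ := z6
      _ = _ := by
        show _ = _
        simp only [Pi.inf_apply, Pi.sup_apply]
        ring
  · intro s t hst
    exact hf fun i => hφ i hst
  · intro s t hst
    exact hg fun i => hφ i hst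

/-- the heights in the window, as functions of the rows -/
noncomputable def hwr (M : ℕ) (v : ℤ × ℤ) (s : Fin (2 * M + 1) → ℤ → ℤ) : ℝ :=
  if h : -(M : ℤ) ≤ v.2 ∧ v.2 ≤ M then ((s ⟨(v.2 + M).toNat, by omega⟩ (key v) : ℤ) : ℝ) else 0

theorem hwr_mono (M : ℕ) (v : ℤ × ℤ) : Monotone (hwr M v) := by
  intro s t hst
  unfold hwr
  split_ifs
  · exact_mod_cast hst _ _
  · exact le_rfl

omit [Fintype (RowSt N)] in
theorem hw_eq (M : ℕ) (v : ℤ × ℤ) (q : Path (RowSt N) (2 * M)) : hw M v q = hwr M v (rows q) :=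
  rfl

/-- **Conditional association of the heights in the window of a strip.** -/
theorem condAssoc_hw (D : PData (RowSt N)) (hA : D.A = Amat N) (hpar : D.par = RowSt.par)
    (hls : LS D.psi) (e : ZMod 2) (M : ℕ) (l : ℤ) {ι : Type*} (v : ι → ℤ × ℤ) :
    CLT.CondAssoc (D.mu e (2 * M)) (Fl (RowSt N) (2 * M) l) (fun i => hw M (v i)) :=
  condAssoc_rows D hA hpar hls e (2 * M) l (fun i => hwr M (v i)) fun i => hwr_mono M (v i)

end Vale.Agent.P153.Strip
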