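import Mathlib

/-!
# P153, strips: sums over paths (transfer matrix)
-/

namespace Vale.Agent.P153.Strip

open Finset

variable {X : Type*} [Fintype X]

/-- weight of a path -/
noncomputable def pw (A : X → X → ℝ) {n : ℕ} (q : Fin (n + 1) → X) : ℝ :=
  ∏ i : Fin n, A (q i.castSucc) (q i.succ)

/-- `k` steps of the transfer matrix applied to `c` -/
noncomputable def ext (A : X → X → ℝ) (c : X → ℝ) : ℕ → X → ℝ
  | 0 => c
  | k + 1 => fun x => ∑ y, A x y * ext A c k y

theorem ext_zero (A : X → X → ℝ) (c : X → ℝ) : ext A c 0 = c := rfl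

theorem ext_succ (A : X → X → ℝ) (c : X → ℝ) (k : ℕ) :
    ext A c (k + 1) = fun x => ∑ y, A x y * ext A c k y := rfl

theorem ext_succ' (A : X → X → ℝ) (c : X → ℝ) (k : ℕ) :
    ext A (fun x => ∑ y, A x y * c y) k = ext A c (k + 1) := by
  induction k with
  | zero => rfl
  | succ k ih => rw [ext_succ, ih, ← ext_succ]

omit [Fintype X] in
theorem pw_snoc (A : X → X → ℝ) {n : ℕ} (q : Fin (n + 1) → X) (y : X) :
    pw A (Fin.snoc q y : Fin (n + 1 + 1) → X) = pw A q * A (q (Fin.last n)) y := by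
  unfold pw
  rw [Fin.prod_univ_castSucc]
  congr 1
  · apply Finset.prod_congr rfl
    intro i _
    rw [Fin.snoc_castSucc, ← Fin.castSucc_succ, Fin.snoc_castSucc]
  · rw [Fin.snoc_castSucc, Fin.succ_last, Fin.snoc_last]

omit [Fintype X] in
theorem pw_cons (A : X → X → ℝ) {n : ℕ} (q : Fin (n + 1) → X) (y : X) :
    pw A (Fin.cons y q : Fin (n + 1 + 1) → X) = A y (q 0) * pw A q := by
  unfold pw
  rw [Fin.prod_univ_succ]
  congr 1

theorem psum_snoc {n : ℕ} (f : (Fin (n + 1) → X) → ℝ) :
    ∑ q : Fin (n + 1) → X, f q = ∑ q : Fin n → X, ∑ y : X, f (Fin.snoc q y) := by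
  rw [← (Fin.snocEquiv (fun _ => X)).sum_comp, Fintype.sum_prod_type_right]
  rfl

theorem psum_cons {n : ℕ} (f : (Fin (n + 1) → X) → ℝ) :
    ∑ q : Fin (n + 1) → X, f q = ∑ q : Fin n → X, ∑ y : X, f (Fin.cons y q) := by
  rw [← (Fin.consEquiv (fun _ => X)).sum_comp, Fintype.sum_prod_type_right]
  rfl

/-- summation over the last `k` steps -/
theorem sum_top (A : X → X → ℝ) {n : ℕ} (G : (Fin (n + 1) → X) → ℝ) (k : ℕ) :
    ∀ c : X → ℝ, ∑ q : Fin (n + k + 1) → X,
      G (fun i => q ⟨i, by omega⟩) * pw A q * c (q (Fin.last _)) =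
      ∑ q : Fin (n + 1) → X, G q * pw A q * ext A c k (q (Fin.last _)) := by
  induction k with
  | zero =>
    intro c
    rfl
  | succ k ih =>
    intro c
    rw [← ext_succ', ← ih]
    refine (psum_snoc (n := n + k + 1) _).trans ?_
    apply Finset.sum_congr rfl
    intro q _
    rw [Finset.mul_sum]
    apply Finset.sum_congr rfl
    intro y _
    have e1 : (fun i : Fin (n + 1) => (Fin.snoc q y : Fin (n + k + 1 + 1) → X) ⟨i, by omega⟩)
        = fun i : Fin (n + 1) => q ⟨i, by omega⟩ := by
      funext i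
      have : (⟨i, by omega⟩ : Fin (n + k + 1 + 1))
          = Fin.castSucc (⟨i, by omega⟩ : Fin (n + k + 1)) := rfl
      rw [this, Fin.snoc_castSucc]
    rw [e1]
    have e2 := pw_snoc A q y
    rw [e2]
    have e3 : (Fin.snoc q y : Fin (n + k + 1 + 1) → X) (Fin.last (n + (k + 1))) = y :=
      Fin.snoc_last (n := n + k + 1) _ _
    rw [e3]
    ring

/-- summation over the first `m` steps -/
theorem sum_bot (A : X → X → ℝ) (hA : ∀ x y, A x y = A y x) {L : ℕ}
    (G : (Fin (L + 1) → X) → ℝ) (m : ℕ) :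
    ∀ b : X → ℝ, ∑ q : Fin (L + m + 1) → X,
      G (fun i => q ⟨m + i, by omega⟩) * pw A q * b (q 0) =
      ∑ q : Fin (L + 1) → X, G q * pw A q * ext A b m (q 0) := by
  induction m with
  | zero =>
    intro b
    apply Finset.sum_congr rfl
    intro q _
    simp only [Nat.zero_add]
    rfl
  | succ m ih =>
    intro b
    rw [← ext_succ', ← ih]
    refine (psum_cons (n := L + m + 1) _).trans ?_
    apply Finset.sum_congr rfl
    intro q _
    rw [Finset.mul_sum]
    apply Finset.sum_congr rfl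
    intro y _
    have e1 : (fun i : Fin (L + 1) => (Fin.cons y q : Fin (L + m + 1 + 1) → X) ⟨m + 1 + i, by omega⟩)
        = fun i : Fin (L + 1) => q ⟨m + i, by omega⟩ := by
      funext i
      have : (⟨m + 1 + i, by omega⟩ : Fin (L + m + 1 + 1))
          = Fin.succ (⟨m + i, by omega⟩ : Fin (L + m + 1)) := by
        ext
        simp
        omega
      rw [this, Fin.cons_succ]
    rw [e1]
    have e2 := pw_cons A q y
    rw [e2]
    have e3 : (Fin.cons y q : Fin (L + m + 1 + 1) → X) 0 = y := rfl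
    rw [e3, hA y (q 0)]
    ring

/-- summation over everything outside the window `m, ..., m + L` -/
theorem sum_window (A : X → X → ℝ) (hA : ∀ x y, A x y = A y x) {L : ℕ}
    (G : (Fin (L + 1) → X) → ℝ) (m k : ℕ) (b c : X → ℝ) :
    ∑ q : Fin (L + m + k + 1) → X,
      G (fun i => q ⟨m + i, by omega⟩) * b (q 0) * pw A q * c (q (Fin.last _)) =
      ∑ q : Fin (L + 1) → X,
        G q * pw A q * ext A b m (q 0) * ext A c k (q (Fin.last _)) := by
  have h1 := sum_top A (n := L + m)
    (fun q : Fin (L + m + 1) → X => G (fun i => q ⟨m + i, by omega⟩) * b (q 0)) k c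
  have h2 := sum_bot A hA (L := L)
    (fun q : Fin (L + 1) → X => G q * ext A c k (q (Fin.last _))) m b
  refine h1.trans ?_
  have e : ∀ q : Fin (L + m + 1) → X,
      G (fun i => q ⟨m + i, by omega⟩) * b (q 0) * pw A q * ext A c k (q (Fin.last _))
        = G (fun i => q ⟨m + i, by omega⟩) * ext A c k (q ⟨m + (Fin.last L : Fin (L + 1)), by
          simp only [Fin.val_last]; omega⟩) * pw A q * b (q 0) := by
    intro q
    have : (⟨m + (Fin.last L : Fin (L + 1)), by simp only [Fin.val_last]; omega⟩ : Fin (L + m + 1))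
        = Fin.last (L + m) := by
      ext
      simp
      omega
    rw [this]
    ring
  rw [Finset.sum_congr rfl fun q _ => e q]
  refine h2.trans ?_
  apply Finset.sum_congr rfl
  intro q _
  ring

end Vale.Agent.P153.Strip
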