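import Vale.Agent.P153.Model.Box
import Vale.Agent.P153.Strip.Path
import Vale.Agent.P153.Strip.RowFin

/-!
# P153, strips: Lipschitz functions on the rectangle as paths of row states
-/

namespace Vale.Agent.P153.Strip

open Finset Vale.Agent.P153.Fv

variable {N : ℕ}

/-- the row `j` of `h` as a function of the key -/
def rowf (h : ℤ × ℤ → ℤ) (j : ℤ) (p : ℤ) : ℤ :=
  if (p : ZMod 2) = j then h ((p - j) / 2, j) else 0

/-- a row state from its data -/
def mkRow {e : ZMod 2} {q : ℤ → ℤ} (h : IsRow N e q) : RowSt N := ⟨(e, q), h⟩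

theorem mkRow_par {e : ZMod 2} {q : ℤ → ℤ} (h : IsRow N e q) : (mkRow h).par = e := rfl

theorem mkRow_ht {e : ZMod 2} {q : ℤ → ℤ} (h : IsRow N e q) (p : ℤ) : (mkRow h).ht p = q p := rfl

open Classical in
/-- the row `j` of `h` as a row state -/
noncomputable def rst (N : ℕ) (h : ℤ × ℤ → ℤ) (j : ℤ) : RowSt N :=
  if hh : IsRow N (j : ZMod 2) (rowf h j) then mkRow hh else zrow N j

theorem rst_par (h : ℤ × ℤ → ℤ) (j : ℤ) : (rst N h j).par = j := by
  unfold rst
  split_ifs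
  · exact mkRow_par _
  · exact zrow_par N _

theorem rst_ht {h : ℤ × ℤ → ℤ} {j : ℤ} (hh : IsRow N (j : ZMod 2) (rowf h j)) (p : ℤ) :
    (rst N h j).ht p = rowf h j p := by
  unfold rst
  rw [dif_pos hh, mkRow_ht]

/-- the function given by a path of row states whose first row is the row `j0` -/
noncomputable def fld (j0 : ℤ) {n : ℕ} (q : Fin (n + 1) → RowSt N) (v : ℤ × ℤ) : ℤ :=
  if h : j0 ≤ v.2 ∧ v.2 ≤ j0 + n then (q ⟨(v.2 - j0).toNat, by omega⟩).ht (key v) else 0

/-- the path of the rows `j0, ..., j0 + n` of `h` -/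
noncomputable def pth (N : ℕ) (j0 : ℤ) (n : ℕ) (h : ℤ × ℤ → ℤ) : Fin (n + 1) → RowSt N :=
  fun i => rst N h (j0 + i)

theorem fld_of_lt (j0 : ℤ) {n : ℕ} (q : Fin (n + 1) → RowSt N) {v : ℤ × ℤ}
    (h : v.2 < j0 ∨ j0 + n < v.2) : fld j0 q v = 0 := by
  unfold fld
  rw [dif_neg (by omega)]

theorem fld_of_le (j0 : ℤ) {n : ℕ} (q : Fin (n + 1) → RowSt N) (a : ℤ) (i : Fin (n + 1)) :
    fld j0 q (a, j0 + i) = (q i).ht (2 * a + (j0 + i)) := by
  unfold fld
  have hi := i.2
  rw [dif_pos (by simp only; omega)]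
  have : (⟨(((a, j0 + i) : ℤ × ℤ).2 - j0).toNat, by simp only; omega⟩ : Fin (n + 1)) = i := by
    ext
    simp
  rw [this]
  rfl

theorem cast_eq_iff (p j : ℤ) : (p : ZMod 2) = j ↔ (p - j) % 2 = 0 := by
  rw [ZMod.intCast_eq_intCast_iff_dvd_sub]
  push_cast
  omega

theorem rowf_key (h : ℤ × ℤ → ℤ) (v : ℤ × ℤ) : rowf h v.2 (key v) = h v := by
  unfold rowf key
  rw [if_pos ((cast_eq_iff _ _).2 (by omega))]
  congr 1
  ext
  · simp
  · rfl

theorem rowf_eq {h : ℤ × ℤ → ℤ} {j p : ℤ} (hp : (p - j) % 2 = 0) :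
    rowf h j p = h ((p - j) / 2, j) := by
  unfold rowf
  rw [if_pos ((cast_eq_iff _ _).2 hp)]

theorem rowf_ne {h : ℤ × ℤ → ℤ} {j p : ℤ} (hp : (p - j) % 2 ≠ 0) : rowf h j p = 0 := by
  unfold rowf
  rw [if_neg fun h' => hp ((cast_eq_iff _ _).1 h')]

/-! ### from functions to paths -/

theorem rect_not_inner {N H H' : ℕ} {v w : ℤ × ℤ} (hvw : Adj v w) (hw : w ∉ rect N H H') :
    v ∉ inner (rect N H H') := fun hv => hw (hv.2 w hvw)

theorem bd_of_not_inner {Λ : Finset (ℤ × ℤ)} {h : ℤ × ℤ → ℤ} (hh : h ∈ reg Λ) {v : ℤ × ℤ}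
    (hv : v ∉ inner Λ) : h v = 0 ∨ h v = 1 := by
  by_cases hv' : v ∈ Λ
  · exact (mem_reg.1 hh).2.1 v hv' hv
  · exact Or.inl ((mem_reg.1 hh).1 v hv')

theorem isRow_rowf {N H H' : ℕ} {h : ℤ × ℤ → ℤ} (hh : h ∈ reg (rect N H H')) (j : ℤ) :
    IsRow N (j : ZMod 2) (rowf h j) := by
  refine ⟨fun p hp => ?_, fun p hp => ?_, fun p hp => ?_, fun p => ?_⟩
  · by_cases h2 : (p - j) % 2 = 0
    · rw [rowf_eq h2]
      apply (mem_reg.1 hh).1
      rw [mem_rect]
      rintro ⟨_, h3⟩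
      simp only at h3
      rw [show 2 * ((p - j) / 2) + j = p by omega] at h3
      omega
    · exact rowf_ne h2
  · unfold rowf
    rw [if_neg hp]
  · by_cases h2 : (p - j) % 2 = 0
    · rw [rowf_eq h2]
      apply bd_of_not_inner hh
      rw [le_abs] at hp
      rcases hp with hp | hp
      · apply rect_not_inner (w := ((p - j) / 2 + 1, j))
        · rw [adj_iff]
          left
          exact ⟨rfl, rfl⟩
        · rw [mem_rect]
          rintro ⟨_, h3⟩
          simp only at h3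
          rw [abs_le] at h3
          omega
      · apply rect_not_inner (w := ((p - j) / 2 - 1, j))
        · rw [adj_iff]
          right; left
          exact ⟨rfl, rfl⟩
        · rw [mem_rect]
          rintro ⟨_, h3⟩
          simp only at h3
          rw [abs_le] at h3
          omega
    · exact Or.inl (rowf_ne h2)
  · by_cases h2 : (p - j) % 2 = 0
    · rw [rowf_eq h2, rowf_eq (by omega : (p + 2 - j) % 2 = 0)]
      apply (mem_reg.1 hh).2.2
      rw [adj_iff]
      left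
      exact ⟨by show (p + 2 - j) / 2 = (p - j) / 2 + 1; omega, rfl⟩
    · rw [rowf_ne h2, rowf_ne (by omega : (p + 2 - j) % 2 ≠ 0)]
      simp

theorem compat_rst {N H H' : ℕ} {h : ℤ × ℤ → ℤ} (hh : h ∈ reg (rect N H H')) (j : ℤ) :
    Compat (rst N h j) (rst N h (j + 1)) := by
  refine ⟨by rw [rst_par, rst_par]; push_cast; ring, fun p => ?_⟩
  rw [rst_ht (isRow_rowf hh j), rst_ht (isRow_rowf hh (j + 1)), rst_ht (isRow_rowf hh (j + 1))]
  by_cases h2 : (p - j) % 2 = 0
  · rw [rowf_eq h2, rowf_eq (by omega : (p + 1 - (j + 1)) % 2 = 0),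
      rowf_eq (by omega : (p - 1 - (j + 1)) % 2 = 0)]
    constructor
    · apply (mem_reg.1 hh).2.2
      rw [adj_iff]
      right; right; left
      exact ⟨by show (p + 1 - (j + 1)) / 2 = (p - j) / 2; omega, rfl⟩
    · apply (mem_reg.1 hh).2.2
      rw [adj_iff]
      right; right; right; right; right
      exact ⟨by show (p - 1 - (j + 1)) / 2 = (p - j) / 2 - 1; omega, rfl⟩
  · rw [rowf_ne h2, rowf_ne (by omega : (p + 1 - (j + 1)) % 2 ≠ 0),
      rowf_ne (by omega : (p - 1 - (j + 1)) % 2 ≠ 0)]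
    simp

/-- the values of the row are all `0` or `1` -/
def Bd (x : RowSt N) : Prop := ∀ p, x.ht p = 0 ∨ x.ht p = 1

theorem bd_rst {N H H' : ℕ} {h : ℤ × ℤ → ℤ} (hh : h ∈ reg (rect N H H')) {j : ℤ}
    (hj : j = -(H : ℤ) ∨ j = H') : Bd (rst N h j) := by
  intro p
  rw [rst_ht (isRow_rowf hh j)]
  by_cases h2 : (p - j) % 2 = 0
  · rw [rowf_eq h2]
    apply bd_of_not_inner hh
    rcases hj with hj | hj
    · apply rect_not_inner (w := ((p - j) / 2, j - 1))
      · rw [adj_iff]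
        right; right; right; left
        exact ⟨rfl, rfl⟩
      · rw [mem_rect]
        rintro ⟨⟨h3, _⟩, _⟩
        simp only at h3
        omega
    · apply rect_not_inner (w := ((p - j) / 2, j + 1))
      · rw [adj_iff]
        right; right; left
        exact ⟨rfl, rfl⟩
      · rw [mem_rect]
        rintro ⟨⟨_, h3⟩, _⟩
        simp only at h3
        omega
  · exact Or.inl (rowf_ne h2)

/-! ### from paths to functions -/

/-- chains of compatible row states whose first row is the row `j0` -/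
def Chn (j0 : ℤ) {n : ℕ} (q : Fin (n + 1) → RowSt N) : Prop :=
  (q 0).par = j0 ∧ (∀ i : Fin n, Compat (q i.castSucc) (q i.succ))

/-- admissible paths whose first row is the row `j0` -/
def Adm (j0 : ℤ) {n : ℕ} (q : Fin (n + 1) → RowSt N) : Prop :=
  (q 0).par = j0 ∧ (∀ i : Fin n, Compat (q i.castSucc) (q i.succ)) ∧ Bd (q 0) ∧ Bd (q (Fin.last n))

theorem Adm.chn {j0 : ℤ} {n : ℕ} {q : Fin (n + 1) → RowSt N} (h : Adm j0 q) : Chn j0 q :=
  ⟨h.1, h.2.1⟩

theorem Chn.par {j0 : ℤ} {n : ℕ} {q : Fin (n + 1) → RowSt N} (h : Chn j0 q) (i : Fin (n + 1)) :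
    (q i).par = ((j0 + (i : ℕ) : ℤ) : ZMod 2) := by
  induction i using Fin.induction with
  | zero => simpa using h.1
  | succ i ih =>
    rw [(h.2 i).1, ih]
    simp only [Fin.val_castSucc, Fin.val_succ]
    push_cast
    ring

theorem fld_side {j0 : ℤ} {n : ℕ} (q : Fin (n + 1) → RowSt N) {v : ℤ × ℤ}
    (hv : 2 * (N : ℤ) - 1 ≤ |key v|) : fld j0 q v = 0 ∨ fld j0 q v = 1 := by
  by_cases h : j0 ≤ v.2 ∧ v.2 ≤ j0 + n
  · unfold fld
    rw [dif_pos h]
    exact (q _).isRow.side _ hv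
  · left
    unfold fld
    rw [dif_neg h]

theorem fld_step {j0 : ℤ} {n : ℕ} {q : Fin (n + 1) → RowSt N} (hq : Adm j0 q) {v w : ℤ × ℤ}
    (hvw : (w.1 = v.1 + 1 ∧ w.2 = v.2) ∨ (w.1 = v.1 ∧ w.2 = v.2 + 1) ∨
      (w.1 = v.1 - 1 ∧ w.2 = v.2 + 1)) : |fld j0 q v - fld j0 q w| ≤ 1 := by
  obtain ⟨a, j⟩ := v
  obtain ⟨b, k⟩ := w
  simp only at hvw
  have bdry : ∀ (a j : ℤ), (j = j0 ∨ j = j0 + n) → fld j0 q (a, j) = 0 ∨ fld j0 q (a, j) = 1 := by
    intro a j hj
    rcases hj with rfl | rfl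
    · have := fld_of_le j q a 0
      simp only [Fin.val_zero, Nat.cast_zero, add_zero] at this
      rw [this]
      exact hq.2.2.1 _
    · have := fld_of_le j0 q a (Fin.last n)
      simp only [Fin.val_last] at this
      rw [this]
      exact hq.2.2.2 _
  rcases hvw with ⟨rfl, rfl⟩ | h
  · by_cases hj : j0 ≤ k ∧ k ≤ j0 + n
    · obtain ⟨i, hi⟩ : ∃ i : Fin (n + 1), k = j0 + i :=
        ⟨⟨(k - j0).toNat, by omega⟩, by simp only; omega⟩
      rw [hi, fld_of_le, fld_of_le]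
      have := (q i).isRow.lip (2 * a + (j0 + i))
      rwa [show 2 * (a + 1) + (j0 + (i : ℤ)) = 2 * a + (j0 + i) + 2 by ring]
    · rw [fld_of_lt j0 q (by simp only; omega), fld_of_lt j0 q (by simp only; omega)]
      simp
  · have hk : k = j + 1 := by omega
    subst hk
    by_cases hj : j0 ≤ j ∧ j + 1 ≤ j0 + n
    · obtain ⟨i, hi⟩ : ∃ i : Fin n, j = j0 + i :=
        ⟨⟨(j - j0).toNat, by omega⟩, by simp only; omega⟩
      have h1 : fld j0 q (a, j) = (q i.castSucc).ht (2 * a + j) := by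
        rw [hi]
        exact fld_of_le j0 q a i.castSucc
      have h2 : fld j0 q (b, j + 1) = (q i.succ).ht (2 * b + (j + 1)) := by
        have := fld_of_le j0 q b i.succ
        rw [Fin.val_succ] at this
        rw [hi, show j0 + (i : ℤ) + 1 = j0 + ((i + 1 : ℕ) : ℤ) by push_cast; ring]
        exact this
      rw [h1, h2]
      have hc := (hq.2.1 i).2 (2 * a + j)
      rcases h with ⟨hb, _⟩ | ⟨hb, _⟩
      · subst hb
        rw [show 2 * b + (j + 1) = 2 * b + j + 1 by ring]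
        exact hc.1
      · subst hb
        rw [show 2 * (a - 1) + (j + 1) = 2 * a + j - 1 by ring]
        exact hc.2
    · by_cases h3 : j < j0
      · rw [fld_of_lt j0 q (v := (a, j)) (by simp only; omega)]
        by_cases h4 : j + 1 = j0
        · rcases bdry b (j + 1) (Or.inl h4) with h5 | h5 <;> rw [h5] <;> norm_num
        · rw [fld_of_lt j0 q (v := (b, j + 1)) (by simp only; omega)]
          simp
      · rw [fld_of_lt j0 q (v := (b, j + 1)) (by simp only; omega)]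
        by_cases h4 : j = j0 + n
        · rcases bdry a j (Or.inr h4) with h5 | h5 <;> rw [h5] <;> norm_num
        · rw [fld_of_lt j0 q (v := (a, j)) (by simp only; omega)]
          simp

theorem fld_mem {H H' n : ℕ} (hn : (n : ℤ) = H + H') {q : Fin (n + 1) → RowSt N}
    (hq : Adm (-(H : ℤ)) q) : fld (-(H : ℤ)) q ∈ reg (rect N H H') := by
  rw [mem_reg]
  refine ⟨fun v hv => ?_, fun v hv hv' => ?_, fun v w hvw => ?_⟩
  · by_cases h : -(H : ℤ) ≤ v.2 ∧ v.2 ≤ -(H : ℤ) + n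
    · unfold fld
      rw [dif_pos h]
      apply (q _).isRow.off
      rw [mem_rect] at hv
      by_contra hcon
      rw [not_lt] at hcon
      exact hv ⟨⟨h.1, by omega⟩, hcon⟩
    · exact fld_of_lt _ q (by omega)
  · have h1 : ∃ w, Adj v w ∧ w ∉ rect N H H' := by
      by_contra hcon
      push Not at hcon
      exact hv' ⟨hv, hcon⟩
    obtain ⟨w, hvw, hw⟩ := h1
    rw [mem_rect] at hv hw
    by_cases hw2 : -(H : ℤ) ≤ w.2 ∧ w.2 ≤ H'
    · apply fld_side
      have h3 : ¬ |2 * w.1 + w.2| ≤ 2 * (N : ℤ) := fun h => hw ⟨hw2, h⟩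
      rw [not_le, lt_abs] at h3
      rw [adj_iff] at hvw
      unfold key
      rw [le_abs]
      omega
    · rw [adj_iff] at hvw
      obtain ⟨a, j⟩ := v
      simp only at *
      have hj : j = -(H : ℤ) ∨ j = H' := by omega
      rcases hj with rfl | rfl
      · have := fld_of_le (-(H : ℤ)) q a 0
        simp only [Fin.val_zero, Nat.cast_zero, add_zero] at this
        rw [this]
        exact hq.2.2.1 _
      · have := fld_of_le (-(H : ℤ)) q a (Fin.last n)
        simp only [Fin.val_last] at this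
        rw [hn, show -(H : ℤ) + (H + H') = H' by ring] at this
        rw [this]
        exact hq.2.2.2 _
  · rw [adj_iff] at hvw
    rcases hvw with h | h | h | h | h | h
    · exact fld_step hq (by omega)
    · rw [abs_sub_comm]
      exact fld_step hq (by omega)
    · exact fld_step hq (by omega)
    · rw [abs_sub_comm]
      exact fld_step hq (by omega)
    · rw [abs_sub_comm]
      exact fld_step hq (by omega)
    · exact fld_step hq (by omega)

theorem pth_adm {H H' n : ℕ} (hn : (n : ℤ) = H + H') {h : ℤ × ℤ → ℤ}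
    (hh : h ∈ reg (rect N H H')) : Adm (-(H : ℤ)) (pth N (-(H : ℤ)) n h) := by
  refine ⟨?_, fun i => ?_, ?_, ?_⟩
  · unfold pth
    rw [rst_par]
    simp
  · unfold pth
    have := compat_rst (N := N) hh (-(H : ℤ) + (i : ℕ))
    simp only [Fin.val_castSucc, Fin.val_succ]
    rw [show -(H : ℤ) + ((i + 1 : ℕ) : ℤ) = -(H : ℤ) + (i : ℕ) + 1 by push_cast; ring]
    exact this
  · unfold pth
    exact bd_rst hh (Or.inl (by simp))
  · unfold pth
    exact bd_rst hh (Or.inr (by simp only [Fin.val_last]; omega))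

theorem fld_pth {H H' n : ℕ} (hn : (n : ℤ) = H + H') {h : ℤ × ℤ → ℤ}
    (hh : h ∈ reg (rect N H H')) : fld (-(H : ℤ)) (pth N (-(H : ℤ)) n h) = h := by
  funext v
  by_cases hv : -(H : ℤ) ≤ v.2 ∧ v.2 ≤ -(H : ℤ) + n
  · unfold fld pth
    rw [dif_pos hv]
    rw [show -(H : ℤ) + ((v.2 - -(H : ℤ)).toNat : ℤ) = v.2 by omega, rst_ht (isRow_rowf hh v.2),
      rowf_key]
  · rw [fld_of_lt _ _ (by omega)]
    symm
    apply (mem_reg.1 hh).1
    rw [mem_rect]
    omega

theorem rowf_fld {j0 : ℤ} {n : ℕ} {q : Fin (n + 1) → RowSt N} (hq : Chn j0 q) (i : Fin (n + 1)) :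
    rowf (fld j0 q) (j0 + i) = (q i).ht := by
  funext p
  by_cases h2 : (p - (j0 + (i : ℕ))) % 2 = 0
  · rw [rowf_eq h2, fld_of_le]
    congr 1
    omega
  · rw [rowf_ne h2]
    symm
    apply (q i).isRow.odd
    rw [hq.par i]
    intro h
    exact h2 ((cast_eq_iff _ _).1 h)

theorem pth_fld {j0 : ℤ} {n : ℕ} {q : Fin (n + 1) → RowSt N} (hq : Chn j0 q) :
    pth N j0 n (fld j0 q) = q := by
  funext i
  have h1 : IsRow N ((j0 + (i : ℕ) : ℤ) : ZMod 2) (rowf (fld j0 q) (j0 + (i : ℕ))) := by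
    rw [rowf_fld hq, ← hq.par i]
    exact (q i).isRow
  unfold pth
  refine RowSt.ext' ?_ fun p => ?_
  · rw [rst_par, hq.par i]
  · rw [rst_ht h1, rowf_fld hq]

/-- sums over the functions of the rectangle are sums over admissible paths -/
theorem sum_reg_rect {H H' n : ℕ} (hn : (n : ℤ) = H + H') (F : (ℤ × ℤ → ℤ) → ℝ)
    [DecidablePred (Adm (N := N) (n := n) (-(H : ℤ)))] :
    ∑ h ∈ reg (rect N H H'), F h =
      ∑ q ∈ Finset.univ.filter (Adm (N := N) (n := n) (-(H : ℤ))), F (fld (-(H : ℤ)) q) := by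
  refine Finset.sum_bij' (fun h _ => pth N (-(H : ℤ)) n h) (fun q _ => fld (-(H : ℤ)) q)
    ?_ ?_ ?_ ?_ ?_
  · intro h hh
    exact Finset.mem_filter.2 ⟨Finset.mem_univ _, pth_adm hn hh⟩
  · intro q hq
    exact fld_mem hn (Finset.mem_filter.1 hq).2
  · intro h hh
    exact fld_pth hn hh
  · intro q hq
    exact pth_fld (Finset.mem_filter.1 hq).2.chn
  · intro h hh
    rw [fld_pth hn hh]

end Vale.Agent.P153.Strip
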