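import Vale.Agent.P153.Strip.Frozen
import Vale.Agent.P153.Strip.Assoc
import Vale.Agent.P153.CLT.NP

/-!
# P153, strips: reflection, invariance and the Newman property for the heights of the even rows
-/

namespace Vale.Agent.P153.Strip

open Finset MeasureTheory

variable {N : ℕ}

/-- Actual height (before stopping). -/
noncomputable def hA (H : ℕ) (p : ℤ × ℤ) (q : Path (RowSt N) (4 * H)) : ℝ :=
  (((q : Fin (4 * H + 1) → RowSt N)
    ⟨min (2 * (p.1 + H).toNat) (4 * H), by omega⟩).ht (2 * p.2) : ℝ)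

/-- The index of the row `2 * j` in the window. -/
def ix (H : ℕ) (j : ℤ) : Fin (4 * H + 1) := ⟨min (2 * (j + H).toNat) (4 * H), by omega⟩

theorem ix_val {H : ℕ} {j : ℤ} (h1 : -(H : ℤ) ≤ j) (h2 : j ≤ H) :
    ((ix H j : Fin (4 * H + 1)) : ℕ) = 2 * (j + H).toNat := by
  unfold ix
  simp only
  omega

/-- The height function of a state at the key `2 * z`. -/
noncomputable def ev2 (z : ℤ) (x : RowSt N) : ℝ := (x.ht (2 * z) : ℝ)

theorem hA_eq (H : ℕ) (p : ℤ × ℤ) (q : Path (RowSt N) (4 * H)) :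
    hA H p q = ev2 p.2 ((q : Fin (4 * H + 1) → RowSt N) (ix H p.1)) := rfl

section

variable [Fintype (RowSt N)] (D : PData (RowSt N)) (hD : D.A = Amat N)
include hD

theorem hR_ae' (e : ZMod 2) (H : ℕ) (p : ℤ × ℤ) (h1 : -(H : ℤ) ≤ p.1) (h2 : p.1 ≤ H) :
    hR H p =ᵐ[D.mu e (4 * H)] hA H p := by
  filter_upwards [hR_ae D hD e H p h1 h2] with q hq
  rw [hq]
  unfold hA
  congr 3
  apply Fin.ext
  simp only
  omega

theorem hR_refl (e : ZMod 2) (H : ℕ) (l : ℤ) (p q : ℤ × ℤ) (h0 : -(H : ℤ) ≤ l)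
    (hp : l ≤ p.1) (hp' : p.1 ≤ H) (hq : l ≤ q.1) (hq' : q.1 ≤ H)
    (hr : -(H : ℤ) ≤ 2 * l - q.1) :
    ∫ ω, ((D.mu e (4 * H))[hR H p | FR N H l]) ω * ((D.mu e (4 * H))[hR H q | FR N H l]) ω
      ∂(D.mu e (4 * H)) =
    ∫ ω, hR H p ω * hR H (2 * l - q.1, q.2) ω ∂(D.mu e (4 * H)) := by
  have hF : FR N H l = Fl (RowSt N) (4 * H) (((ix H l : Fin (4 * H + 1)) : ℕ) : ℤ) := by
    show Fl (RowSt N) (4 * H) (2 * l + 2 * H) = _
    rw [ix_val h0 (hp.trans hp')]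
    congr 1
    push_cast
    omega
  have a1 := hR_ae' D hD e H p (h0.trans hp) hp'
  have a2 := hR_ae' D hD e H q (h0.trans hq) hq'
  have a3 := hR_ae' D hD e H (2 * l - q.1, q.2) hr (by simp only; omega)
  have c1 := condExp_congr_ae (m := FR N H l) a1
  have c2 := condExp_congr_ae (m := FR N H l) a2
  have e1 : ∫ ω, ((D.mu e (4 * H))[hR H p | FR N H l]) ω *
      ((D.mu e (4 * H))[hR H q | FR N H l]) ω ∂(D.mu e (4 * H)) =
      ∫ ω, ((D.mu e (4 * H))[hA H p | FR N H l]) ω *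
      ((D.mu e (4 * H))[hA H q | FR N H l]) ω ∂(D.mu e (4 * H)) := by
    apply integral_congr_ae
    filter_upwards [c1, c2] with ω b1 b2
    rw [b1, b2]
  have e2 : ∫ ω, hR H p ω * hR H (2 * l - q.1, q.2) ω ∂(D.mu e (4 * H)) =
      ∫ ω, hA H p ω * hA H (2 * l - q.1, q.2) ω ∂(D.mu e (4 * H)) := by
    apply integral_congr_ae
    filter_upwards [a1, a3] with ω b1 b2
    rw [b1, b2]
  rw [e1, e2, hF]
  have v1 := ix_val h0 (hp.trans hp')
  have v2 := ix_val (h0.trans hp) hp'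
  have v3 := ix_val (h0.trans hq) hq'
  have v4 : ((ix H (2 * l - q.1) : Fin (4 * H + 1)) : ℕ) = 2 * (2 * l - q.1 + H).toNat :=
    ix_val hr (by omega)
  exact D.refl e (4 * H) (ix H l) (ix H p.1) (ix H q.1) (ix H (2 * l - q.1))
    (Fin.le_def.2 (by omega)) (Fin.le_def.2 (by omega)) (by omega) (ev2 p.2) (ev2 q.2)

theorem hR_inv (e : ZMod 2) (H : ℕ) (l : ℤ) (p q : ℤ × ℤ) (h0 : -(H : ℤ) ≤ l)
    (hp : l ≤ p.1) (hp' : p.1 ≤ H) (hq : l ≤ q.1) (hq' : q.1 ≤ H)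
    (hr : -(H : ℤ) ≤ 2 * l - q.1) (hr' : -(H : ℤ) ≤ 2 * l - p.1) :
    ∫ ω, hR H (2 * l - p.1, p.2) ω * hR H (2 * l - q.1, q.2) ω ∂(D.mu e (4 * H)) =
    ∫ ω, hR H p ω * hR H q ω ∂(D.mu e (4 * H)) := by
  have a1 := hR_ae' D hD e H p (h0.trans hp) hp'
  have a2 := hR_ae' D hD e H q (h0.trans hq) hq'
  have a3 := hR_ae' D hD e H (2 * l - q.1, q.2) hr (by simp only; omega)
  have a4 := hR_ae' D hD e H (2 * l - p.1, p.2) hr' (by simp only; omega)
  have e1 : ∫ ω, hR H (2 * l - p.1, p.2) ω * hR H (2 * l - q.1, q.2) ω ∂(D.mu e (4 * H)) =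
      ∫ ω, hA H (2 * l - p.1, p.2) ω * hA H (2 * l - q.1, q.2) ω ∂(D.mu e (4 * H)) := by
    apply integral_congr_ae
    filter_upwards [a3, a4] with ω b1 b2
    rw [b1, b2]
  have e2 : ∫ ω, hR H p ω * hR H q ω ∂(D.mu e (4 * H)) =
      ∫ ω, hA H p ω * hA H q ω ∂(D.mu e (4 * H)) := by
    apply integral_congr_ae
    filter_upwards [a1, a2] with ω b1 b2
    rw [b1, b2]
  rw [e1, e2]
  have v2 := ix_val (h0.trans hp) hp'
  have v3 := ix_val (h0.trans hq) hq'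
  have v4 : ((ix H (2 * l - q.1) : Fin (4 * H + 1)) : ℕ) = 2 * (2 * l - q.1 + H).toNat :=
    ix_val hr (by omega)
  have v5 : ((ix H (2 * l - p.1) : Fin (4 * H + 1)) : ℕ) = 2 * (2 * l - p.1 + H).toNat :=
    ix_val hr' (by omega)
  exact D.inv e (4 * H) (2 * (l + H).toNat) (ix H p.1) (ix H q.1) (ix H (2 * l - p.1))
    (ix H (2 * l - q.1)) (by omega) (by omega) (ev2 p.2) (ev2 q.2)

omit hD in
theorem condAssoc_congr {Ω : Type*} {mΩ : MeasurableSpace Ω} {μ : Measure Ω}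
    {m : MeasurableSpace Ω} {ι : Type*} [Countable ι] {r r' : ι → Ω → ℝ}
    (h : ∀ i, r i =ᵐ[μ] r' i) (hr : CLT.CondAssoc μ m r) : CLT.CondAssoc μ m r' := by
  intro f g hf hg mf mg
  have h0 : ∀ᵐ ω ∂μ, ∀ i, r i ω = r' i ω := ae_all_iff.2 fun i => h i
  have h1 : (fun ω => f (fun i => r i ω)) =ᵐ[μ] fun ω => f (fun i => r' i ω) := by
    filter_upwards [h0] with ω hω
    simp only [hω]
  have h2 : (fun ω => g (fun i => r i ω)) =ᵐ[μ] fun ω => g (fun i => r' i ω) := by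
    filter_upwards [h0] with ω hω
    simp only [hω]
  have h3 : (fun ω => f (fun i => r i ω) * g (fun i => r i ω)) =ᵐ[μ]
      fun ω => f (fun i => r' i ω) * g (fun i => r' i ω) := by
    filter_upwards [h0] with ω hω
    simp only [hω]
  have k := hr f g hf hg mf mg
  have c1 := condExp_congr_ae (m := m) h1
  have c2 := condExp_congr_ae (m := m) h2
  have c3 := condExp_congr_ae (m := m) h3
  filter_upwards [k, c1, c2, c3] with ω k c1 c2 c3
  rw [← c1, ← c2, ← c3]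
  exact k

omit hD in
theorem hR_bm (H : ℕ) (p : ℤ × ℤ) :
    CLT.BM (mΩ := (inferInstance : MeasurableSpace (Path (RowSt N) (4 * H))))
      (hR (N := N) H p) := by
  refine ⟨measurable_path _, ?_⟩
  obtain ⟨C, hC⟩ := (Set.finite_range fun q : Path (RowSt N) (4 * H) => |hR H p q|).bddAbove
  exact ⟨C, fun q => hC ⟨q, rfl⟩⟩

theorem hR_np (hpar : D.par = RowSt.par) (hls : LS D.psi) (e : ZMod 2) (H : ℕ) (l : ℤ)
    {ι : Type} [Fintype ι] (u : ι → ℤ × ℤ) (h1 : ∀ i, -(H : ℤ) ≤ (u i).1)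
    (h2 : ∀ i, (u i).1 ≤ H) :
    CLT.NP (D.mu e (4 * H)) (FR N H l) (fun i => hR H (u i)) := by
  apply CLT.CondAssoc.np (fun i => hR_bm H (u i))
  have k := condAssoc_rows D hD hpar hls e (4 * H) (2 * l + 2 * H)
    (fun i s => ((s (ix H (u i).1) (2 * (u i).2) : ℤ) : ℝ)) (fun i s t hst => by
      simp only
      exact_mod_cast hst (ix H (u i).1) (2 * (u i).2))
  exact condAssoc_congr (fun i => (hR_ae' D hD e H (u i) (h1 i) (h2 i)).symm) k

end

end Vale.Agent.P153.Strip
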