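import Vale.Agent.P153.CLT.Newman

/-!
# P153, strips: conditional expectation on a finite probability space, conditional association

`fm p` is the measure with weights `p` on a finite type. For the sigma-algebra generated by a map
`ρ`, the conditional expectation is the average over the fibre.
-/

namespace Vale.Agent.P153.Strip

open MeasureTheory Finset Filter
open scoped ENNReal

variable {Ω Ω' : Type*} [Fintype Ω] [mΩ : MeasurableSpace Ω] [MeasurableSingletonClass Ω]

/-- the measure with weights `p` -/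
noncomputable def fm (p : Ω → ℝ) : Measure Ω :=
  ∑ ω, ENNReal.ofReal (p ω) • Measure.dirac ω

instance (p : Ω → ℝ) : IsFiniteMeasure (fm p) := by
  refine ⟨?_⟩
  unfold fm
  rw [Measure.coe_finsetSum, Finset.sum_apply]
  exact ENNReal.sum_lt_top.2 fun ω _ => by
    rw [Measure.smul_apply, smul_eq_mul]
    exact ENNReal.mul_lt_top ENNReal.ofReal_lt_top (measure_lt_top _ _)

omit [MeasurableSingletonClass Ω] in
theorem meas_all [MeasurableSingletonClass Ω] (s : Set Ω) : MeasurableSet s :=
  (Set.toFinite s).measurableSet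

theorem aesm (p : Ω → ℝ) (g : Ω → ℝ) : AEStronglyMeasurable g (fm p) :=
  (measurable_of_finite g).aestronglyMeasurable

theorem integrable_fm (p : Ω → ℝ) (g : Ω → ℝ) : Integrable g (fm p) := by
  classical
  obtain ⟨C, hC⟩ : ∃ C : ℝ, ∀ ω, ‖g ω‖ ≤ C := by
    refine ⟨∑ ω, ‖g ω‖, fun ω => ?_⟩
    exact Finset.single_le_sum (f := fun ω => ‖g ω‖) (fun _ _ => norm_nonneg _) (mem_univ ω)
  exact Integrable.of_bound (aesm p g) C (ae_of_all _ hC)

theorem integral_fm {p : Ω → ℝ} (hp : ∀ ω, 0 ≤ p ω) (g : Ω → ℝ) :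
    ∫ ω, g ω ∂(fm p) = ∑ ω, p ω * g ω := by
  unfold fm
  rw [integral_finsetSum_measure]
  · refine Finset.sum_congr rfl fun ω _ => ?_
    rw [integral_smul_measure, integral_dirac, ENNReal.toReal_ofReal (hp ω), smul_eq_mul]
  · intro ω _
    have : Integrable g (Measure.dirac ω) := by
      refine ⟨(measurable_of_finite g).aestronglyMeasurable, ?_⟩
      rw [HasFiniteIntegral, lintegral_dirac]
      exact ENNReal.coe_lt_top
    exact this.smul_measure ENNReal.ofReal_ne_top

theorem setIntegral_fm {p : Ω → ℝ} (hp : ∀ ω, 0 ≤ p ω) (g : Ω → ℝ) (s : Set Ω)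
    [DecidablePred (· ∈ s)] :
    ∫ ω in s, g ω ∂(fm p) = ∑ ω, if ω ∈ s then p ω * g ω else 0 := by
  rw [← integral_indicator (meas_all s), integral_fm hp]
  refine Finset.sum_congr rfl fun ω _ => ?_
  by_cases h : ω ∈ s
  · rw [if_pos h, Set.indicator_of_mem h]
  · rw [if_neg h, Set.indicator_of_notMem h, mul_zero]

theorem isProb_fm {p : Ω → ℝ} (hp : ∀ ω, 0 ≤ p ω) (h1 : ∑ ω, p ω = 1) :
    IsProbabilityMeasure (fm p) := by
  refine ⟨?_⟩
  have h := integral_fm hp (fun _ => (1 : ℝ))
  simp only [mul_one, h1] at h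
  rw [integral_const, smul_eq_mul, mul_one] at h
  have h2 : (fm p).real Set.univ = 1 := h
  rw [Measure.real, ENNReal.toReal_eq_one_iff] at h2
  exact h2

/-- fibre average -/
noncomputable def fav [DecidableEq Ω'] (p : Ω → ℝ) (ρ : Ω → Ω') (g : Ω → ℝ) (y : Ω') : ℝ :=
  (∑ ω, if ρ ω = y then p ω * g ω else 0) / (∑ ω, if ρ ω = y then p ω else 0)

theorem comap_le (ρ : Ω → Ω') : MeasurableSpace.comap ρ ⊤ ≤ mΩ := by
  rintro s ⟨t, _, rfl⟩
  exact meas_all _

theorem condExp_fm [DecidableEq Ω'] {p : Ω → ℝ} (hp : ∀ ω, 0 ≤ p ω) (ρ : Ω → Ω') (g : Ω → ℝ) :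
    (fm p)[g | MeasurableSpace.comap ρ ⊤] =ᵐ[fm p] fun ω => fav p ρ g (ρ ω) := by
  classical
  symm
  refine ae_eq_condExp_of_forall_setIntegral_eq (comap_le ρ) (integrable_fm p g)
    (fun s _ _ => (integrable_fm p _).integrableOn) ?_ ?_
  · rintro s ⟨t, _, rfl⟩ _
    rw [setIntegral_fm hp, setIntegral_fm hp]
    simp only [Set.mem_preimage]
    -- group by the value of ρ
    have key : ∀ F : Ω → ℝ, (∑ ω, if ρ ω ∈ t then F ω else 0) =
        ∑ y ∈ univ.image ρ, if y ∈ t then (∑ ω, if ρ ω = y then F ω else 0) else 0 := by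
      intro F
      have e := Finset.sum_fiberwise_of_maps_to (s := (univ : Finset Ω)) (t := univ.image ρ)
        (g := ρ) (fun ω _ => mem_image_of_mem ρ (mem_univ ω)) (fun ω => if ρ ω ∈ t then F ω else 0)
      refine e.symm.trans (Finset.sum_congr rfl fun y _ => ?_)
      by_cases hy : y ∈ t
      · rw [if_pos hy]
        refine Eq.trans ?_ (Finset.sum_filter (fun ω => ρ ω = y) F)
        refine Finset.sum_congr rfl fun ω hω => ?_
        rw [(mem_filter.1 hω).2, if_pos hy]
      · rw [if_neg hy]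
        refine Finset.sum_eq_zero fun ω hω => ?_
        rw [(mem_filter.1 hω).2, if_neg hy]
    rw [key, key]
    refine Finset.sum_congr rfl fun y _ => ?_
    by_cases hy : y ∈ t
    · rw [if_pos hy, if_pos hy]
      have h1 : (∑ ω, if ρ ω = y then p ω * fav p ρ g (ρ ω) else 0) =
          (∑ ω, if ρ ω = y then p ω else 0) * fav p ρ g y := by
        rw [Finset.sum_mul]
        refine Finset.sum_congr rfl fun ω _ => ?_
        by_cases h : ρ ω = y
        · rw [if_pos h, if_pos h, h]
        · rw [if_neg h, if_neg h, zero_mul]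
      rw [h1]
      unfold fav
      by_cases h0 : (∑ ω, if ρ ω = y then p ω else 0) = 0
      · rw [h0, zero_mul]
        have h2 : ∀ ω, ρ ω = y → p ω = 0 := by
          intro ω hω
          have h3 := (Finset.sum_eq_zero_iff_of_nonneg (fun ω _ => by
            split_ifs
            · exact hp ω
            · exact le_rfl)).1 h0 ω (mem_univ ω)
          rw [if_pos hω] at h3
          exact h3
        refine (Finset.sum_eq_zero fun ω _ => ?_).symm
        by_cases h : ρ ω = y
        · rw [if_pos h, h2 ω h, zero_mul]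
        · rw [if_neg h]
      · rw [mul_div_cancel₀ _ h0]
    · rw [if_neg hy, if_neg hy]
  · refine StronglyMeasurable.aestronglyMeasurable ?_
    have h1 : @Measurable Ω ℝ (MeasurableSpace.comap ρ ⊤) _ (fun ω => fav p ρ g (ρ ω)) :=
      fun s _ => ⟨fav p ρ g ⁻¹' s, trivial, rfl⟩
    exact h1.stronglyMeasurable

/-- conditional association from the inequality on every fibre -/
theorem condAssoc_of_fibre [DecidableEq Ω'] {p : Ω → ℝ} (hp : ∀ ω, 0 ≤ p ω) (ρ : Ω → Ω')
    {ι : Type*} (r : ι → Ω → ℝ)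
    (h : ∀ y, ∀ f g : (ι → ℝ) → ℝ, Monotone f → Monotone g →
      (∑ ω, if ρ ω = y then p ω * f (fun i => r i ω) else 0) *
        (∑ ω, if ρ ω = y then p ω * g (fun i => r i ω) else 0) ≤
      (∑ ω, if ρ ω = y then p ω else 0) *
        (∑ ω, if ρ ω = y then p ω * (f (fun i => r i ω) * g (fun i => r i ω)) else 0)) :
    CLT.CondAssoc (fm p) (MeasurableSpace.comap ρ ⊤) r := by
  classical
  intro f g _ _ hf hg
  filter_upwards [condExp_fm hp ρ (fun ω => f (fun i => r i ω)),
    condExp_fm hp ρ (fun ω => g (fun i => r i ω)),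
    condExp_fm hp ρ (fun ω => f (fun i => r i ω) * g (fun i => r i ω))] with ω h1 h2 h3
  rw [h1, h2, h3]
  have h4 := h (ρ ω) f g hf hg
  set D := (∑ ω', if ρ ω' = ρ ω then p ω' else 0) with hD
  have hD0 : 0 ≤ D := Finset.sum_nonneg fun ω' _ => by
    split_ifs
    · exact hp _
    · exact le_rfl
  unfold fav
  rw [← hD]
  rcases hD0.eq_or_lt with h0 | h0
  · rw [← h0]; simp
  · rw [div_mul_div_comm, div_le_div_iff₀ (by positivity) h0]
    calc _ = ((∑ ω', if ρ ω' = ρ ω then p ω' * f (fun i => r i ω') else 0) *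
          (∑ ω', if ρ ω' = ρ ω then p ω' * g (fun i => r i ω') else 0)) * D := rfl
      _ ≤ (D * (∑ ω', if ρ ω' = ρ ω then p ω' * (f (fun i => r i ω') * g (fun i => r i ω'))
            else 0)) * D := mul_le_mul_of_nonneg_right h4 hD0
      _ = _ := by ring

end Vale.Agent.P153.Strip
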