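import Vale.Agent.P153.Strip.Meas

/-!
# P153, strips: heights at the even rows of the window, stopped at the first inadmissible step
-/

namespace Vale.Agent.P153.Strip

open Finset MeasureTheory

variable {N : ℕ}

/-- The first `m` steps of the path are admissible. -/
def Good {n : ℕ} (q : Fin (n + 1) → RowSt N) (m : ℕ) : Prop :=
  ∀ i : Fin n, (i : ℕ) < m → Compat (q i.castSucc) (q i.succ)

theorem Good.mono {n : ℕ} {q : Fin (n + 1) → RowSt N} {m m' : ℕ} (h : Good q m') (hm : m ≤ m') :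
    Good q m := fun i hi => h i (lt_of_lt_of_le hi hm)

theorem good_zero {n : ℕ} (q : Fin (n + 1) → RowSt N) : Good q 0 := fun _ hi => absurd hi (by omega)

/-- The last `m ≤ k` such that the first `2 * m` steps are admissible. -/
noncomputable def lastGood {n : ℕ} (q : Fin (n + 1) → RowSt N) (k : ℕ) : ℕ :=
  @Nat.findGreatest (fun m => Good q (2 * m)) (fun _ => Classical.propDecidable _) k

theorem lastGood_le {n : ℕ} (q : Fin (n + 1) → RowSt N) (k : ℕ) : lastGood q k ≤ k :=
  @Nat.findGreatest_le _ (fun _ => Classical.propDecidable _) k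

theorem lastGood_eq {n : ℕ} {q : Fin (n + 1) → RowSt N} {k : ℕ} (h : Good q (2 * k)) :
    lastGood q k = k := by
  exact le_antisymm (lastGood_le q k)
    (@Nat.le_findGreatest _ (fun m => Good q (2 * m)) (fun _ => Classical.propDecidable _) _
      le_rfl h)

theorem lastGood_succ_of_not {n : ℕ} {q : Fin (n + 1) → RowSt N} {k : ℕ}
    (h : ¬ Good q (2 * (k + 1))) : lastGood q (k + 1) = lastGood q k := by
  unfold lastGood
  rw [@Nat.findGreatest_succ (fun m => Good q (2 * m)) (fun _ => Classical.propDecidable _) k,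
    if_neg h]

theorem lastGood_congr {n : ℕ} {q q' : Fin (n + 1) → RowSt N} {k : ℕ}
    (h : ∀ i : Fin (n + 1), (i : ℕ) ≤ 2 * k → q i = q' i) : lastGood q k = lastGood q' k := by
  induction k with
  | zero =>
    have h1 := lastGood_le q 0
    have h2 := lastGood_le q' 0
    omega
  | succ k ih =>
    have ih' := ih fun i hi => h i (by omega)
    have hg : Good q (2 * (k + 1)) ↔ Good q' (2 * (k + 1)) := by
      constructor
      · intro hg i hi
        have h1 : ((i.castSucc : Fin (n + 1)) : ℕ) = i := rfl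
        have h2 : ((i.succ : Fin (n + 1)) : ℕ) = i + 1 := rfl
        rw [← h i.castSucc (by omega), ← h i.succ (by omega)]
        exact hg i hi
      · intro hg i hi
        have h1 : ((i.castSucc : Fin (n + 1)) : ℕ) = i := rfl
        have h2 : ((i.succ : Fin (n + 1)) : ℕ) = i + 1 := rfl
        rw [h i.castSucc (by omega), h i.succ (by omega)]
        exact hg i hi
    by_cases hq : Good q (2 * (k + 1))
    · rw [lastGood_eq hq, lastGood_eq (hg.1 hq)]
    · rw [lastGood_succ_of_not hq, lastGood_succ_of_not fun h' => hq (hg.2 h'), ih']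

/-- The state at the even row number `k` (row `2 * k` of the path), stopped at the first
inadmissible step. -/
noncomputable def fz {H : ℕ} (q : Fin (4 * H + 1) → RowSt N) (k : ℕ) : RowSt N :=
  q ⟨min (2 * lastGood q k) (4 * H), by omega⟩

theorem fz_good {H : ℕ} {q : Fin (4 * H + 1) → RowSt N} {k : ℕ} (hk : k ≤ 2 * H)
    (h : Good q (2 * k)) : fz q k = q ⟨2 * k, by omega⟩ := by
  unfold fz
  congr 1
  apply Fin.ext
  simp only
  rw [lastGood_eq h]
  omega

theorem fz_congr {H : ℕ} {q q' : Fin (4 * H + 1) → RowSt N} {k : ℕ}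
    (h : ∀ i : Fin (4 * H + 1), (i : ℕ) ≤ 2 * k → q i = q' i) : fz q k = fz q' k := by
  have h1 := lastGood_congr h
  have h2 := lastGood_le q' k
  unfold fz
  simp only [h1]
  exact h _ (by simp only; omega)

theorem fz_lip {H : ℕ} (q : Fin (4 * H + 1) → RowSt N) (k : ℕ) (hk : k + 1 ≤ 2 * H) (p : ℤ) :
    |(fz q (k + 1)).ht p - (fz q k).ht p| ≤ 2 := by
  by_cases h : Good q (2 * (k + 1))
  · rw [fz_good hk h, fz_good (by omega) (h.mono (by omega))]
    have h1 := h ⟨2 * k, by omega⟩ (by simp only; omega)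
    have h2 := h ⟨2 * k + 1, by omega⟩ (by simp only; omega)
    have e1 := (h1.2 p).1
    have e2 := (h2.2 (p + 1)).2
    have a1 : (Fin.castSucc ⟨2 * k, by omega⟩ : Fin (4 * H + 1)) = ⟨2 * k, by omega⟩ := rfl
    have a2 : (Fin.succ ⟨2 * k, by omega⟩ : Fin (4 * H + 1)) = ⟨2 * k + 1, by omega⟩ := rfl
    have a3 : (Fin.castSucc ⟨2 * k + 1, by omega⟩ : Fin (4 * H + 1)) = ⟨2 * k + 1, by omega⟩ := rfl
    have a4 : (Fin.succ ⟨2 * k + 1, by omega⟩ : Fin (4 * H + 1)) = ⟨2 * (k + 1), by omega⟩ := rfl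
    rw [a1, a2] at e1
    rw [a3, a4] at e2
    have e3 : p + 1 - 1 = p := by ring
    rw [e3] at e2
    rw [abs_le] at e1 e2 ⊢
    constructor <;> linarith [e1.1, e1.2, e2.1, e2.2]
  · have : fz q (k + 1) = fz q k := by
      unfold fz
      simp only [lastGood_succ_of_not h]
    rw [this, sub_self, abs_zero]
    norm_num

/-- The height at the site `p = (j, z)` (row `2 * j` of the lattice, key `2 * z`). -/
noncomputable def hR (H : ℕ) (p : ℤ × ℤ) (q : Path (RowSt N) (4 * H)) : ℝ :=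
  if -(H : ℤ) ≤ p.1 ∧ p.1 ≤ H then
    ((fz (q : Fin (4 * H + 1) → RowSt N) (p.1 + H).toNat).ht (2 * p.2) : ℝ) else 0

/-- The sigma-algebras. -/
@[reducible] def FR (N H : ℕ) (l : ℤ) : MeasurableSpace (Path (RowSt N) (4 * H)) :=
  Fl (RowSt N) (4 * H) (2 * l + 2 * H)

theorem measurable_hR (H : ℕ) (p : ℤ × ℤ) : Measurable[FR N H p.1] (hR (N := N) H p) := by
  apply measurable_Fl
  intro q q' hq
  unfold hR
  by_cases h : -(H : ℤ) ≤ p.1 ∧ p.1 ≤ H
  · rw [if_pos h, if_pos h]
    have h1 : fz (H := H) q (p.1 + H).toNat = fz (H := H) q' (p.1 + H).toNat :=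
      fz_congr fun i hi => hq i (by omega)
    rw [h1]
  · rw [if_neg h, if_neg h]

theorem FR_mono (N H : ℕ) : Monotone (FR N H) := fun _ _ h => Fl_mono _ (by omega)

theorem hR_lip (H : ℕ) (j x : ℤ) (h1 : -(H : ℤ) ≤ j) (h2 : j + 1 ≤ H)
    (q : Path (RowSt N) (4 * H)) : |hR H (j + 1, x) q - hR H (j, x) q| ≤ 2 := by
  unfold hR
  rw [if_pos ⟨by simp only; omega, by simp only; omega⟩, if_pos ⟨by simp only; omega,
    by simp only; omega⟩]
  have e : ((j + 1, x) : ℤ × ℤ).1 + (H : ℤ) = ((j + H).toNat + 1 : ℕ) := by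
    push_cast
    omega
  have h3 := fz_lip (H := H) (q : Fin (4 * H + 1) → RowSt N) (j + H).toNat (by omega) (2 * x)
  have e' : (((j + 1, x) : ℤ × ℤ).1 + (H : ℤ)).toNat = (j + H).toNat + 1 := by
    rw [e]
    rfl
  rw [e']
  have : ((((fz (H := H) (q : Fin (4 * H + 1) → RowSt N) ((j + H).toNat + 1)).ht (2 * x) -
    (fz (H := H) (q : Fin (4 * H + 1) → RowSt N) (j + H).toNat).ht (2 * x) : ℤ)) : ℝ) =
    ((fz (H := H) (q : Fin (4 * H + 1) → RowSt N) ((j + H).toNat + 1)).ht (2 * x) : ℝ) -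
    ((fz (H := H) (q : Fin (4 * H + 1) → RowSt N) (j + H).toNat).ht (2 * x) : ℝ) := by
    push_cast
    ring
  rw [← this]
  exact_mod_cast h3

/-! ### almost sure statements -/

section ae

variable {X : Type*} [Fintype X] (D : PData X)

theorem PData.ae_of (e : ZMod 2) (n : ℕ) (p : Path X n → Prop)
    (h : ∀ q : Fin (n + 1) → X, D.W e n q ≠ 0 → p q) : ∀ᵐ q ∂(D.mu e n), p q := by
  rw [ae_iff]
  unfold PData.mu
  rw [Measure.finsetSum_apply]
  apply Finset.sum_eq_zero
  intro q _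
  rw [Measure.smul_apply, smul_eq_mul]
  by_cases hW : D.W e n q = 0
  · rw [hW, ENNReal.ofReal_zero, zero_mul]
  · rw [Measure.dirac_apply' _ (show MeasurableSet {a | ¬ p a} from trivial)]
    rw [Set.indicator_of_notMem, mul_zero]
    intro hq
    exact hq (h q hW)

theorem PData.step_ne (e : ZMod 2) (n : ℕ) (q : Fin (n + 1) → X) (h : D.W e n q ≠ 0)
    (i : Fin n) : D.A (q i.castSucc) (q i.succ) ≠ 0 := by
  intro h0
  apply h
  unfold PData.W
  rw [Finset.prod_eq_zero (Finset.mem_univ i), mul_zero]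
  unfold PData.P
  rw [h0, zero_mul, zero_div]

end ae

theorem hR_ae [Fintype (RowSt N)] (D : PData (RowSt N)) (hD : D.A = Amat N) (e : ZMod 2)
    (H : ℕ) (p : ℤ × ℤ) (h1 : -(H : ℤ) ≤ p.1) (h2 : p.1 ≤ H) :
    hR H p =ᵐ[D.mu e (4 * H)] fun q : Path (RowSt N) (4 * H) =>
      (((q : Fin (4 * H + 1) → RowSt N) ⟨2 * (p.1 + H).toNat, by omega⟩).ht (2 * p.2) : ℝ) := by
  apply D.ae_of
  intro q hq
  have hg : ∀ m, Good (n := 4 * H) q m := by
    intro m i _
    have h3 := D.step_ne e (4 * H) q hq i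
    rw [hD] at h3
    unfold Amat at h3
    by_contra hc
    rw [if_neg hc] at h3
    exact h3 rfl
  unfold hR
  rw [if_pos ⟨h1, h2⟩]
  rw [fz_good (H := H) (by omega) (hg _)]

end Vale.Agent.P153.Strip
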