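import Vale.Agent.P153.Strip.Facts
import Vale.Agent.P153.Asm.Plane

/-!
# P153, strips: the strip is a row model
-/

namespace Vale.Agent.P153.Strip

open Finset MeasureTheory

variable {N : ℕ}

theorem rows_strip [Fintype (RowSt N)] (D : PData (RowSt N)) (hD : D.A = Amat N)
    (hpar : D.par = RowSt.par) (hls : LS D.psi) (e : ZMod 2) (H : ℕ) :
    Asm.Rows (D.mu e (4 * H)) (FR N H) (fun p => hR H p) 2 (-(H : ℤ)) H := by
  refine Asm.Rows.of_plain (fun l => Fl_le _ _) (FR_mono N H) (fun p => measurable_hR H p)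
    (fun p => hR_bm H p) ?_ ?_ ?_ ?_
  · rintro l p q ⟨hp1, hp2, hp3⟩ ⟨hq1, hq2, hq3⟩
    exact hR_refl D hD e H l p q (by omega) hp1 hp2 hq1 hq2 hq3
  · rintro l p q ⟨hp1, hp2, hp3⟩ ⟨hq1, hq2, hq3⟩
    exact hR_inv D hD e H l p q (by omega) hp1 hp2 hq1 hq2 hq3 hp3
  · intro l ι _ u hl hu
    exact hR_np D hD hpar hls e H l u (fun i => by have := (hu i).1; omega)
      (fun i => (hu i).2)
  · intro j x ω h1 h2
    exact hR_lip H j x h1 h2 ω

end Vale.Agent.P153.Strip
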