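import Vale.Agent.P153.Strip.Chain

/-!
# P153, strips: the window law as a measure, conditional expectations
-/

namespace Vale.Agent.P153.Strip

open Finset MeasureTheory

variable {X : Type*}

/-- The rows `0, ..., l` of a path. -/
def rstr {n : ℕ} (l : ℤ) (q : Fin (n + 1) → X) : Fin (n + 1) → Option X :=
  fun i => if (i : ℤ) ≤ l then some (q i) else none

theorem rstr_eq_iff {n : ℕ} {l : ℤ} {q q' : Fin (n + 1) → X} :
    rstr l q = rstr l q' ↔ ∀ i : Fin (n + 1), (i : ℤ) ≤ l → q i = q' i := by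
  constructor
  · intro h i hi
    have h1 := congrFun h i
    simp only [rstr, hi, if_true] at h1
    exact Option.some.inj h1
  · intro h
    funext i
    unfold rstr
    by_cases hi : (i : ℤ) ≤ l
    · rw [if_pos hi, if_pos hi, h i hi]
    · rw [if_neg hi, if_neg hi]

theorem measurable_path {n : ℕ} {β : Type*} [MeasurableSpace β] (F : Path X n → β) :
    Measurable F := fun _ _ => trivial

theorem Fl_le (n : ℕ) (l : ℤ) : Fl X n l ≤ (inferInstance : MeasurableSpace (Path X n)) :=
  fun _ _ => trivial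

theorem measurableSet_Fl {n : ℕ} {l : ℤ} {s : Set (Path X n)} :
    MeasurableSet[Fl X n l] s ↔ ∀ q q' : Fin (n + 1) → X,
      (∀ i : Fin (n + 1), (i : ℤ) ≤ l → q i = q' i) → (q ∈ s ↔ q' ∈ s) := by
  constructor
  · rintro ⟨t, _, rfl⟩ q q' h
    have h1 : rstr l q = rstr l q' := rstr_eq_iff.2 h
    show rstr l q ∈ t ↔ rstr l q' ∈ t
    rw [h1]
  · intro h
    refine ⟨(rstr l) '' s, trivial, ?_⟩
    ext q
    constructor
    · rintro ⟨q', hq', e⟩
      have e' : rstr l q' = rstr l q := e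
      exact (h q' q (rstr_eq_iff.1 e')).1 hq'
    · intro hq
      exact ⟨q, hq, rfl⟩

theorem measurable_Fl {n : ℕ} {β : Type*} [MeasurableSpace β] {l : ℤ} {F : Path X n → β}
    (h : ∀ q q' : Fin (n + 1) → X, (∀ i : Fin (n + 1), (i : ℤ) ≤ l → q i = q' i) →
      F q = F q') : Measurable[Fl X n l] F := by
  intro s _
  rw [measurableSet_Fl]
  intro q q' hq
  show F q ∈ s ↔ F q' ∈ s
  rw [h q q' hq]

theorem Fl_mono (n : ℕ) : Monotone (Fl X n) := by
  intro l l' hll s hs
  rw [measurableSet_Fl] at hs ⊢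
  intro q q' hq
  exact hs q q' fun i hi => hq i (hi.trans hll)

variable [Fintype X] (D : PData X)

theorem PData.integral_mu (e : ZMod 2) (n : ℕ) (F : Path X n → ℝ) :
    ∫ q, F q ∂(D.mu e n) = D.EE e n F := by
  unfold PData.mu
  rw [integral_finsetSum_measure]
  · unfold PData.EE
    apply Finset.sum_congr rfl
    intro q _
    rw [integral_smul_measure, integral_dirac' _ _ (measurable_path F).stronglyMeasurable,
      ENNReal.toReal_ofReal (D.W_nn e n q), smul_eq_mul]
  · intro q _
    apply Integrable.smul_measure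
    · exact integrable_dirac (by simp)
    · exact ENNReal.ofReal_ne_top

instance PData.prob (e : ZMod 2) (n : ℕ) : IsProbabilityMeasure (D.mu e n) := by
  constructor
  unfold PData.mu
  rw [Measure.finsetSum_apply]
  simp only [Measure.smul_apply, measure_univ, smul_eq_mul, mul_one]
  have := D.EE_one e n
  unfold PData.EE at this
  simp only [mul_one] at this
  have h2 : ∑ q : Path X n, D.W e n q = 1 := this
  have h3 : ∑ q : Path X n, ENNReal.ofReal (D.W e n q) =
      ENNReal.ofReal (∑ q : Path X n, D.W e n q) :=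
    (ENNReal.ofReal_sum_of_nonneg fun q _ => D.W_nn e n q).symm
  exact h3.trans (by rw [h2, ENNReal.ofReal_one])

theorem PData.integrable (e : ZMod 2) (n : ℕ) (F : Path X n → ℝ) : Integrable F (D.mu e n) := by
  obtain ⟨C, hC⟩ : ∃ C, ∀ q, ‖F q‖ ≤ C := by
    obtain ⟨C, hC⟩ := (Set.finite_range fun q => ‖F q‖).bddAbove
    exact ⟨C, fun q => hC ⟨q, rfl⟩⟩
  exact Integrable.of_bound (measurable_path F).aestronglyMeasurable C (ae_of_all _ hC)

/-- Conditional expectations given the rows `≤ l`, from the identity for all test functions. -/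
theorem PData.condExp_of (e : ZMod 2) (n : ℕ) (l : Fin (n + 1)) (F G : Path X n → ℝ)
    (hG : ∀ q q' : Fin (n + 1) → X, (∀ i : Fin (n + 1), (i : ℕ) ≤ l → q i = q' i) → G q = G q')
    (h : ∀ u : (Fin (n + 1) → X) → ℝ, PData.DepLe (l : ℕ) u →
      D.EE e n (fun q => u q * F q) = D.EE e n (fun q => u q * G q)) :
    (D.mu e n)[F | Fl X n (l : ℕ)] =ᵐ[D.mu e n] G := by
  symm
  have hG' : Measurable[Fl X n (l : ℕ)] G := by
    apply measurable_Fl
    intro q q' hq
    exact hG q q' fun i hi => hq i (by exact_mod_cast hi)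
  refine ae_eq_condExp_of_forall_setIntegral_eq (Fl_le n _) (D.integrable e n F)
    (fun s _ _ => (D.integrable e n G).integrableOn) (fun s hs _ => ?_)
    hG'.stronglyMeasurable.aestronglyMeasurable
  classical
  have hs' : MeasurableSet s := trivial
  rw [← integral_indicator hs', ← integral_indicator hs', D.integral_mu, D.integral_mu]
  have h1 := h (fun q => if (q : Path X n) ∈ s then 1 else 0) (by
    intro q q' hq
    have h2 := (measurableSet_Fl.1 hs) q q' fun i hi => hq i (by exact_mod_cast hi)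
    simp only [h2])
  have e1 : ∀ H : Path X n → ℝ, (s.indicator H) =
      fun q : Path X n => (if q ∈ s then 1 else 0) * H q := by
    intro H
    funext q
    by_cases hq : q ∈ s
    · rw [Set.indicator_of_mem hq, if_pos hq, one_mul]
    · rw [Set.indicator_of_notMem hq, if_neg hq, zero_mul]
  rw [e1 G, e1 F]
  exact h1.symm

theorem PData.condExp_row (e : ZMod 2) (n : ℕ) (l m : Fin (n + 1)) (hlm : l ≤ m) (f : X → ℝ) :
    (D.mu e n)[fun q : Path X n => f ((q : Fin (n + 1) → X) m) | Fl X n (l : ℕ)]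
      =ᵐ[D.mu e n] fun q => (D.T)^[(m : ℕ) - l] f ((q : Fin (n + 1) → X) l) := by
  refine D.condExp_of e n l _ _ (fun q q' hq => ?_) fun u hu => ?_
  · show (D.T)^[(m : ℕ) - l] f (q l) = (D.T)^[(m : ℕ) - l] f (q' l)
    rw [hq l le_rfl]
  · exact D.EE_markov e f n l m hlm u hu

/-- The reflection identity. -/
theorem PData.refl (e : ZMod 2) (n : ℕ) (l a b k : Fin (n + 1)) (ha : l ≤ a) (hb : l ≤ b)
    (hk : (k : ℕ) + b = 2 * l) (f g : X → ℝ) :
    ∫ q, ((D.mu e n)[fun q : Path X n => f ((q : Fin (n + 1) → X) a) | Fl X n (l : ℕ)]) q *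
      ((D.mu e n)[fun q : Path X n => g ((q : Fin (n + 1) → X) b) | Fl X n (l : ℕ)]) q
        ∂(D.mu e n) =
    ∫ q : Path X n, f ((q : Fin (n + 1) → X) a) * g ((q : Fin (n + 1) → X) k) ∂(D.mu e n) := by
  have h1 := D.condExp_row e n l a ha f
  have h2 := D.condExp_row e n l b hb g
  have h3 : ∫ q, ((D.mu e n)[fun q : Path X n => f ((q : Fin (n + 1) → X) a) | Fl X n (l : ℕ)]) q *
      ((D.mu e n)[fun q : Path X n => g ((q : Fin (n + 1) → X) b) | Fl X n (l : ℕ)]) q
        ∂(D.mu e n) = ∫ q : Path X n, (D.T)^[(a : ℕ) - l] f ((q : Fin (n + 1) → X) l) *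
          (D.T)^[(b : ℕ) - l] g ((q : Fin (n + 1) → X) l) ∂(D.mu e n) := by
    apply integral_congr_ae
    filter_upwards [h1, h2] with q e1 e2
    rw [e1, e2]
  rw [h3, D.integral_mu, D.integral_mu]
  exact D.EE_mr e n l a b k ha hb hk f g

/-- Invariance under the reflection in a row. -/
theorem PData.inv (e : ZMod 2) (n : ℕ) (l : ℕ) (a b a' b' : Fin (n + 1))
    (ha : (a' : ℕ) + a = 2 * l) (hb : (b' : ℕ) + b = 2 * l) (f g : X → ℝ) :
    ∫ q : Path X n, f ((q : Fin (n + 1) → X) a') * g ((q : Fin (n + 1) → X) b') ∂(D.mu e n) =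
    ∫ q : Path X n, f ((q : Fin (n + 1) → X) a) * g ((q : Fin (n + 1) → X) b) ∂(D.mu e n) := by
  rw [D.integral_mu, D.integral_mu]
  exact D.EE_inv e n l a b a' b' ha hb f g

end Vale.Agent.P153.Strip
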