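import Vale.Agent.P153.Strip.Defs

/-!
# P153, strips: Perron-Frobenius for a bipartite symmetric transfer matrix

`A` symmetric, nonnegative, changes the parity, and some even power is positive on each parity
class. Then there is a positive eigenvector `ψ` and the powers converge on each parity class.
-/

namespace Vale.Agent.P153.Strip

open Finset Matrix Filter Topology

section pf0

variable {ι : Type*} [Fintype ι]

/-- a nonnegative quadratic form vanishes only on the kernel -/
private lemma pf_ker_of_form_zero (M : Matrix ι ι ℝ) (hM : M.IsSymm) (ε : ℝ)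
    (h : ∀ x : ι → ℝ, x ⬝ᵥ M.mulVec x ≤ ε * (x ⬝ᵥ x)) (y : ι → ℝ)
    (hy : y ⬝ᵥ M.mulVec y = ε * (y ⬝ᵥ y)) : M.mulVec y = ε • y := by
  -- the residual vector
  set r : ι → ℝ := M.mulVec y - ε • y with hr
  have hsym : ∀ a b : ι → ℝ, a ⬝ᵥ M.mulVec b = b ⬝ᵥ M.mulVec a := by
    intro a b
    rw [dotProduct_mulVec, ← mulVec_transpose, hM.eq, dotProduct_comm]
  have key : ∀ t : ℝ, 2 * t * (r ⬝ᵥ r) ≤ t ^ 2 * (ε * (r ⬝ᵥ r) - r ⬝ᵥ M.mulVec r) := by
    intro t
    have h1 := h (y + t • r)
    rw [mulVec_add, mulVec_smul, dotProduct_add, add_dotProduct, add_dotProduct, dotProduct_smul,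
      smul_dotProduct, smul_dotProduct, dotProduct_smul, add_dotProduct, dotProduct_add,
      dotProduct_add, smul_dotProduct, dotProduct_smul, smul_dotProduct, dotProduct_smul,
      hsym y r] at h1
    simp only [smul_eq_mul] at h1
    have h2 : r ⬝ᵥ M.mulVec y = r ⬝ᵥ r + ε * (r ⬝ᵥ y) := by
      have : M.mulVec y = r + ε • y := by rw [hr]; abel
      rw [this, dotProduct_add, dotProduct_smul, smul_eq_mul]
    rw [hy, h2, dotProduct_comm y r] at h1
    nlinarith [h1]
  have hrr : 0 ≤ r ⬝ᵥ r := Finset.sum_nonneg fun i _ => mul_self_nonneg (r i)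
  have hr0 : r ⬝ᵥ r = 0 := by
    by_contra hne
    have hpos : 0 < r ⬝ᵥ r := lt_of_le_of_ne hrr (Ne.symm hne)
    set K := ε * (r ⬝ᵥ r) - r ⬝ᵥ M.mulVec r with hK
    have hK1 : 0 < |K| + 1 := by positivity
    have h1 := key ((r ⬝ᵥ r) / (|K| + 1))
    have h2 : (r ⬝ᵥ r / (|K| + 1)) ^ 2 * K ≤ (r ⬝ᵥ r / (|K| + 1)) ^ 2 * (|K| + 1) :=
      mul_le_mul_of_nonneg_left (by linarith [le_abs_self K]) (sq_nonneg _)
    have h3 : (r ⬝ᵥ r / (|K| + 1)) ^ 2 * (|K| + 1) = (r ⬝ᵥ r) ^ 2 / (|K| + 1) := by
      field_simp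
    have h4 : 2 * (r ⬝ᵥ r / (|K| + 1)) * (r ⬝ᵥ r) = 2 * ((r ⬝ᵥ r) ^ 2 / (|K| + 1)) := by ring
    have h5 : 0 < (r ⬝ᵥ r) ^ 2 / (|K| + 1) := by positivity
    linarith
  have : r = 0 := by
    funext i
    have h1 : ∑ j, r j * r j = 0 := hr0
    have h2 := (sum_eq_zero_iff_of_nonneg fun j _ => mul_self_nonneg (r j)).1 h1 i (mem_univ i)
    exact mul_self_eq_zero.1 h2
  rw [hr] at this
  exact sub_eq_zero.1 this

/-- irreducibility -/
private def pfIrr (M : Matrix ι ι ℝ) : Prop :=
  ∀ S : Set ι, S.Nonempty → Sᶜ.Nonempty → ∃ i ∈ S, ∃ j ∉ S, 0 < M i j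

/-- nonnegative nonzero eigenvectors are positive -/
private lemma pf_pos_of_nonneg_eig (M : Matrix ι ι ℝ) (hoff : ∀ i j, i ≠ j → 0 ≤ M i j) (hirr : pfIrr M)
    {ε : ℝ} {y : ι → ℝ} (hy : ∀ i, 0 ≤ y i) (hy0 : y ≠ 0) (hM : M.mulVec y = ε • y) :
    ∀ i, 0 < y i := by
  by_contra hne
  push Not at hne
  obtain ⟨i0, hi0⟩ := hne
  have h1 : ({i | y i = 0} : Set ι).Nonempty := ⟨i0, le_antisymm hi0 (hy i0)⟩
  have h2 : ({i | y i = 0} : Set ι)ᶜ.Nonempty := by
    by_contra h
    rw [Set.not_nonempty_iff_eq_empty, Set.compl_empty_iff] at h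
    apply hy0
    funext i
    have : i ∈ ({i | y i = 0} : Set ι) := by rw [h]; trivial
    exact this
  obtain ⟨i, hi, j, hj, hij⟩ := hirr _ h1 h2
  have hi' : y i = 0 := hi
  have hj' : 0 < y j := lt_of_le_of_ne (hy j) (Ne.symm hj)
  have e : ∑ k, M i k * y k = ε * y i := congrFun hM i
  rw [hi', mul_zero] at e
  have hnn : ∀ k ∈ (univ : Finset ι), 0 ≤ M i k * y k := by
    intro k _
    by_cases hk : i = k
    · subst hk; rw [hi', mul_zero]
    · exact mul_nonneg (hoff i k hk) (hy k)
  have := (sum_eq_zero_iff_of_nonneg hnn).1 e j (mem_univ j)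
  have h3 : 0 < M i j * y j := mul_pos hij hj'
  linarith

/-- **Perron-Frobenius** for symmetric real matrices with nonnegative off-diagonal entries -/
private theorem pf_perron [Nonempty ι] (M : Matrix ι ι ℝ) (hM : M.IsSymm)
    (hoff : ∀ i j, i ≠ j → 0 ≤ M i j) (hirr : pfIrr M) :
    ∃ (ψ : ι → ℝ) (ε : ℝ), (∀ i, 0 < ψ i) ∧ M.mulVec ψ = ε • ψ ∧
      (∀ φ : ι → ℝ, φ ⬝ᵥ M.mulVec φ ≤ ε * (φ ⬝ᵥ φ)) ∧
      (∀ φ : ι → ℝ, M.mulVec φ = ε • φ → ∃ c : ℝ, φ = c • ψ) := by
  classical
  -- maximum of the quadratic form on the sphere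
  set K : Set (ι → ℝ) := {x | x ⬝ᵥ x = 1} with hK
  have hQ : Continuous fun x : ι → ℝ => x ⬝ᵥ M.mulVec x := by
    unfold dotProduct mulVec dotProduct
    fun_prop
  have hcl : IsClosed K := by
    have : Continuous fun x : ι → ℝ => x ⬝ᵥ x := by unfold dotProduct; fun_prop
    exact isClosed_eq this continuous_const
  have hcomp : IsCompact K := by
    refine (isCompact_univ_pi (fun _ : ι => isCompact_Icc (a := (-1 : ℝ)) (b := 1))).of_isClosed_subset
      hcl ?_
    intro x hx i _
    have h1 : ∑ j, x j * x j = 1 := hx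
    have h2 : x i * x i ≤ 1 := by
      rw [← h1]
      exact single_le_sum (f := fun j => x j * x j) (fun j _ => mul_self_nonneg (x j)) (mem_univ i)
    rw [Set.mem_Icc]
    constructor <;> nlinarith
  have hne : K.Nonempty := by
    obtain ⟨i⟩ := (inferInstance : Nonempty ι)
    refine ⟨Pi.single i 1, ?_⟩
    simp [hK, dotProduct, Pi.single_apply]
  obtain ⟨x0, hx0, hmax⟩ := hcomp.exists_isMaxOn hne hQ.continuousOn
  set ε : ℝ := x0 ⬝ᵥ M.mulVec x0 with hε
  have hform : ∀ φ : ι → ℝ, φ ⬝ᵥ M.mulVec φ ≤ ε * (φ ⬝ᵥ φ) := by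
    intro φ
    have hn : 0 ≤ φ ⬝ᵥ φ := Finset.sum_nonneg fun i _ => mul_self_nonneg (φ i)
    rcases hn.eq_or_lt with h0 | hpos
    · have : φ = 0 := by
        funext i
        have h1 : ∑ j, φ j * φ j = 0 := h0.symm
        have h2 := (sum_eq_zero_iff_of_nonneg fun j _ => mul_self_nonneg (φ j)).1 h1 i (mem_univ i)
        exact mul_self_eq_zero.1 h2
      subst this
      simp
    · set c := Real.sqrt (φ ⬝ᵥ φ) with hc
      have hc2 : c * c = φ ⬝ᵥ φ := Real.mul_self_sqrt hn
      have hcpos : 0 < c := Real.sqrt_pos.2 hpos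
      have hmem : c⁻¹ • φ ∈ K := by
        simp only [hK, Set.mem_ofPred_eq, smul_dotProduct, dotProduct_smul, smul_eq_mul]
        rw [← hc2]; field_simp
      have := hmax hmem
      simp only [Set.mem_ofPred_eq, mulVec_smul, smul_dotProduct, dotProduct_smul,
        smul_eq_mul] at this
      rw [← hc2]
      have h2 : c⁻¹ * (c⁻¹ * (φ ⬝ᵥ M.mulVec φ)) * (c * c) ≤ ε * (c * c) :=
        mul_le_mul_of_nonneg_right this (by positivity)
      have h3 : c⁻¹ * (c⁻¹ * (φ ⬝ᵥ M.mulVec φ)) * (c * c) = φ ⬝ᵥ M.mulVec φ := by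
        field_simp
      linarith
  -- absolute value
  set y : ι → ℝ := fun i => |x0 i| with hy
  have hyy : y ⬝ᵥ y = 1 := by
    have : x0 ⬝ᵥ x0 = 1 := hx0
    rw [← this]
    unfold dotProduct
    exact sum_congr rfl fun i _ => abs_mul_abs_self _
  have hy1 : ε ≤ y ⬝ᵥ M.mulVec y := by
    rw [hε]
    unfold dotProduct mulVec dotProduct
    refine sum_le_sum fun i _ => ?_
    rw [mul_sum, mul_sum]
    refine sum_le_sum fun j _ => ?_
    by_cases hij : i = j
    · subst hij
      simp only [hy]
      have : |x0 i| * (M i i * |x0 i|) = M i i * (|x0 i| * |x0 i|) := by ring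
      rw [this, abs_mul_abs_self]
      exact le_of_eq (by ring)
    · have h1 : x0 i * x0 j ≤ |x0 i| * |x0 j| := by rw [← abs_mul]; exact le_abs_self _
      have h2 := mul_le_mul_of_nonneg_left h1 (hoff i j hij)
      simp only [hy]
      nlinarith
  have hyQ : y ⬝ᵥ M.mulVec y = ε * (y ⬝ᵥ y) := by
    apply le_antisymm (hform y)
    rw [hyy, mul_one]; exact hy1
  have hyeig := pf_ker_of_form_zero M hM ε hform y hyQ
  have hy0 : y ≠ 0 := by
    intro h; rw [h] at hyy; simp at hyy
  have hypos := pf_pos_of_nonneg_eig M hoff hirr (fun i => abs_nonneg (x0 i)) hy0 hyeig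
  refine ⟨y, ε, hypos, hyeig, hform, fun φ hφ => ?_⟩
  obtain ⟨i, -, hi⟩ := Finset.exists_min_image (univ : Finset ι) (fun i => φ i / y i) univ_nonempty
  refine ⟨φ i / y i, ?_⟩
  by_contra hne
  set z : ι → ℝ := φ - (φ i / y i) • y with hz
  have hz0 : z ≠ 0 := fun h => hne (sub_eq_zero.1 h)
  have hznn : ∀ j, 0 ≤ z j := by
    intro j
    have := hi j (mem_univ j)
    have h2 : φ i / y i * y j ≤ φ j / y j * y j := mul_le_mul_of_nonneg_right this (hypos j).le
    rw [div_mul_cancel₀ _ (hypos j).ne'] at h2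
    simp only [hz, Pi.sub_apply, Pi.smul_apply, smul_eq_mul]
    linarith
  have hzeig : M.mulVec z = ε • z := by
    rw [hz, mulVec_sub, mulVec_smul, hφ, hyeig, smul_sub, smul_comm]
  have := pf_pos_of_nonneg_eig M hoff hirr hznn hz0 hzeig i
  simp only [hz, Pi.sub_apply, Pi.smul_apply, smul_eq_mul] at this
  rw [div_mul_cancel₀ _ (hypos i).ne', sub_self] at this
  exact lt_irrefl _ this

end pf0

section pf1

variable {X : Type*} [Fintype X] [DecidableEq X]

/-- the hypotheses on the transfer matrix -/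
structure Bip (A : X → X → ℝ) (par : X → ZMod 2) (K : ℕ) : Prop where
  symm : ∀ x y, A x y = A y x
  nn : ∀ x y, 0 ≤ A x y
  flip : ∀ x y, A x y ≠ 0 → par y = par x + 1
  one_le : 1 ≤ K
  pos : ∀ x y, par x = par y → 0 < ((Matrix.of A) ^ (2 * K)) x y

variable {A : X → X → ℝ} {par : X → ZMod 2} {K : ℕ}

lemma Bip.exists_adj (h : Bip A par K) (x : X) : ∃ y, 0 < A x y := by
  by_contra hcon
  push Not at hcon
  have h0 : ∀ y, A x y = 0 := fun y => le_antisymm (hcon y) (h.nn x y)
  have h1 := h.pos x x rfl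
  obtain ⟨k, hk⟩ : ∃ k, 2 * K = k + 1 := ⟨2 * K - 1, by have := h.one_le; omega⟩
  rw [hk, pow_succ', Matrix.mul_apply] at h1
  simp only [Matrix.of_apply, h0, zero_mul, sum_const_zero, lt_self_iff_false] at h1

lemma zmod2_ne {a b : ZMod 2} (h : a ≠ b) : a = b + 1 := by
  revert h
  revert a b
  decide

lemma zmod2_add_one_add_one (a : ZMod 2) : a + 1 + 1 = a := by
  revert a
  decide

/-- existence of the Perron data -/
theorem Bip.exists_pdata [Nonempty X] (h : Bip A par K) :
    ∃ D : PData X, D.A = A ∧ D.par = par := by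
  have hirr : ∀ S : Set X, S.Nonempty → Sᶜ.Nonempty → ∃ i ∈ S, ∃ j ∉ S, 0 < A i j := by
    intro S hS hS'
    by_contra hcon
    push Not at hcon
    have h0 : ∀ i ∈ S, ∀ j ∉ S, A i j = 0 := fun i hi j hj =>
      le_antisymm (hcon i hi j hj) (h.nn i j)
    have hn : ∀ n : ℕ, ∀ i ∈ S, ∀ j ∉ S, ((Matrix.of A) ^ n) i j = 0 := by
      intro n
      induction n with
      | zero =>
        intro i hi j hj
        rw [pow_zero, Matrix.one_apply, if_neg]
        rintro rfl
        exact hj hi
      | succ n ih =>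
        intro i hi j hj
        rw [pow_succ, Matrix.mul_apply]
        refine sum_eq_zero fun z _ => ?_
        by_cases hz : z ∈ S
        · rw [Matrix.of_apply, h0 z hz j hj, mul_zero]
        · rw [ih i hi z hz, zero_mul]
    obtain ⟨i, hi⟩ := hS
    obtain ⟨j, hj⟩ := hS'
    obtain ⟨k, hk⟩ := h.exists_adj i
    have hkS : k ∈ S := by
      by_contra hkS
      rw [h0 i hi k hkS] at hk
      exact lt_irrefl _ hk
    by_cases hp : par i = par j
    · have := h.pos i j hp
      rw [hn _ i hi j hj] at this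
      exact lt_irrefl _ this
    · have hp2 : par k = par j := by
        rw [h.flip i k hk.ne', zmod2_ne (Ne.symm hp)]
      have := h.pos k j hp2
      rw [hn _ k hkS j hj] at this
      exact lt_irrefl _ this
  obtain ⟨φ, lam, hφ, heig, -, -⟩ := pf_perron (Matrix.of A)
    (Matrix.IsSymm.ext fun i j => h.symm j i) (fun i j _ => h.nn i j) hirr
  have he : ∀ x, ∑ y, A x y * φ y = lam * φ x := fun x => congrFun heig x
  have hlam : 0 < lam := by
    obtain ⟨x⟩ := (inferInstance : Nonempty X)
    obtain ⟨y, hy⟩ := h.exists_adj x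
    have h1 : 0 < ∑ y, A x y * φ y :=
      sum_pos' (fun z _ => mul_nonneg (h.nn x z) (hφ z).le) ⟨y, mem_univ y, mul_pos hy (hφ y)⟩
    rw [he x] at h1
    exact pos_of_mul_pos_left h1 (hφ x).le
  have hS : ∀ e : ZMod 2, ∑ x, (if par x = e then φ x ^ 2 else 0) =
      ∑ x, (if par x = e + 1 then φ x ^ 2 else 0) := by
    intro e
    have h1 : ∀ e : ZMod 2, lam * ∑ x, (if par x = e then φ x ^ 2 else 0) =
        ∑ x, ∑ y, if par x = e then A x y * φ x * φ y else 0 := by
      intro e
      rw [mul_sum]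
      refine sum_congr rfl fun x _ => ?_
      split_ifs with hx
      · have h2 : lam * φ x ^ 2 = φ x * (lam * φ x) := by ring
        rw [h2, ← he x, mul_sum]
        exact sum_congr rfl fun y _ => by ring
      · simp
    have h2 : lam * ∑ x, (if par x = e then φ x ^ 2 else 0) =
        lam * ∑ x, (if par x = e + 1 then φ x ^ 2 else 0) := by
      rw [h1 e, h1 (e + 1), sum_comm]
      refine sum_congr rfl fun x _ => sum_congr rfl fun y _ => ?_
      by_cases hA : A x y = 0
      · rw [h.symm y x, hA]; simp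
      · have hf := h.flip x y hA
        by_cases hx : par x = e + 1
        · rw [if_pos hx, if_pos (by rw [hf, hx, zmod2_add_one_add_one]), h.symm y x]
          ring
        · rw [if_neg hx, if_neg]
          intro hy
          apply hx
          rw [hf] at hy
          rw [← hy, zmod2_add_one_add_one]
    exact mul_left_cancel₀ hlam.ne' h2
  set S : ℝ := ∑ x, (if par x = 0 then φ x ^ 2 else 0) with hSdef
  have hSall : ∀ e : ZMod 2, ∑ x, (if par x = e then φ x ^ 2 else 0) = S := by
    intro e
    by_cases he0 : e = 0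
    · subst he0; rfl
    · have : e = 0 + 1 := zmod2_ne he0
      rw [this, ← hS 0]
  have hSpos : 0 < S := by
    obtain ⟨x⟩ := (inferInstance : Nonempty X)
    rw [← hSall (par x)]
    refine sum_pos' (fun z _ => ?_) ⟨x, mem_univ x, ?_⟩
    · split_ifs
      · exact sq_nonneg _
      · exact le_rfl
    · rw [if_pos rfl]
      exact pow_pos (hφ x) 2
  have hsq : 0 < Real.sqrt S := Real.sqrt_pos.2 hSpos
  refine ⟨{ A := A, psi := fun x => φ x / Real.sqrt S, lam := lam, par := par, symm := h.symm,
            nn := h.nn, pos := fun x => div_pos (hφ x) hsq, lpos := hlam, eig := fun x => ?_,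
            flip := h.flip, nrm := fun e => ?_ }, rfl, rfl⟩
  · have : ∀ y, A x y * (φ y / Real.sqrt S) = (A x y * φ y) / Real.sqrt S := fun y => by ring
    simp only [this]
    rw [← sum_div, he x]
    ring
  · have : ∀ x, (if par x = e then (φ x / Real.sqrt S) ^ 2 else 0) =
        (if par x = e then φ x ^ 2 else 0) / S := by
      intro x
      split_ifs
      · rw [div_pow, Real.sq_sqrt hSpos.le]
      · simp
    simp only [this]
    rw [← sum_div, hSall e, div_self hSpos.ne']

/-- the mean on a parity class -/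
noncomputable def PData.mean (D : PData X) (e : ZMod 2) (f : X → ℝ) : ℝ :=
  ∑ x, if D.par x = e then D.psi x ^ 2 * f x else 0

variable (D : PData X)

omit [DecidableEq X] in
lemma PData.T_eq (f : X → ℝ) (x : X) :
    D.T f x = (∑ y, D.A x y * (D.psi y * f y)) / (D.lam * D.psi x) := by
  unfold PData.T PData.P
  rw [sum_div]
  exact sum_congr rfl fun y _ => by ring

omit [DecidableEq X] in
lemma PData.abs_T_le {f : X → ℝ} {C : ℝ} (hf : ∀ x, |f x| ≤ C) (x : X) : |D.T f x| ≤ C := by
  have hx := mul_pos D.lpos (D.pos x)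
  rw [D.T_eq, abs_div, abs_of_pos hx, div_le_iff₀ hx]
  calc |∑ y, D.A x y * (D.psi y * f y)| ≤ ∑ y, |D.A x y * (D.psi y * f y)| :=
        abs_sum_le_sum_abs _ _
    _ ≤ ∑ y, D.A x y * D.psi y * C := by
        refine sum_le_sum fun y _ => ?_
        rw [abs_mul, abs_mul, abs_of_nonneg (D.nn x y), abs_of_pos (D.pos y), ← mul_assoc]
        exact mul_le_mul_of_nonneg_left (hf y) (mul_nonneg (D.nn x y) (D.pos y).le)
    _ = C * (D.lam * D.psi x) := by rw [← sum_mul, D.eig x]; ring

omit [DecidableEq X] in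
lemma PData.mean_T (f : X → ℝ) (e : ZMod 2) : D.mean e (D.T f) = D.mean (e + 1) f := by
  have hl := D.lpos.ne'
  have h1 : ∀ x, (if D.par x = e then D.psi x ^ 2 * D.T f x else 0) =
      ∑ y, if D.par y = e + 1 then D.A x y * D.psi x * D.psi y * f y / D.lam else 0 := by
    intro x
    have hne := (D.pos x).ne'
    split_ifs with hx
    · rw [D.T_eq]
      have : D.psi x ^ 2 * ((∑ y, D.A x y * (D.psi y * f y)) / (D.lam * D.psi x)) =
          (D.psi x / D.lam) * ∑ y, D.A x y * (D.psi y * f y) := by field_simp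
      rw [this, mul_sum]
      refine sum_congr rfl fun y _ => ?_
      split_ifs with hy
      · field_simp
      · have hA : D.A x y = 0 := by
          by_contra hA
          apply hy
          rw [D.flip x y hA, hx]
        rw [hA]; ring
    · symm
      refine sum_eq_zero fun y _ => ?_
      split_ifs with hy
      · have hA : D.A x y = 0 := by
          by_contra hA
          apply hx
          have := D.flip x y hA
          rw [hy] at this
          exact (add_right_cancel this).symm
        rw [hA]; ring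
      · rfl
  unfold PData.mean
  rw [sum_congr rfl fun x _ => h1 x, sum_comm]
  refine sum_congr rfl fun y _ => ?_
  split_ifs with hy
  · have h3 : ∀ x, D.A x y * D.psi x * D.psi y * f y / D.lam =
        (D.A y x * D.psi x) * (D.psi y * f y / D.lam) := fun x => by
      rw [D.symm x y]; ring
    simp only [h3]
    rw [← sum_mul, D.eig y]
    field_simp
  · simp

lemma PData.pow_mulVec (v : X → ℝ) (n : ℕ) (x : X) :
    ((Matrix.of D.A) ^ n).mulVec v x =
      D.lam ^ n * D.psi x * (D.T^[n] (fun y => v y / D.psi y)) x := by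
  induction n generalizing x with
  | zero =>
    have := (D.pos x).ne'
    simp only [pow_zero, Matrix.one_mulVec, Function.iterate_zero, id, one_mul]
    field_simp
  | succ n ih =>
    rw [pow_succ', ← Matrix.mulVec_mulVec, Function.iterate_succ_apply']
    have e1 : (Matrix.of D.A).mulVec (((Matrix.of D.A) ^ n).mulVec v) x =
        ∑ y, D.A x y * ((Matrix.of D.A) ^ n).mulVec v y := rfl
    rw [e1, D.T_eq]
    simp only [ih]
    have h1 := D.lpos.ne'
    have h2 := (D.pos x).ne'
    have e2 : ∀ y, D.A x y * (D.lam ^ n * D.psi y * (D.T^[n] (fun y => v y / D.psi y)) y) =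
        D.lam ^ n * (D.A x y * (D.psi y * (D.T^[n] (fun y => v y / D.psi y)) y)) := fun y => by
      ring
    simp only [e2]
    rw [← mul_sum]
    field_simp
    ring

omit [DecidableEq X] in
lemma PData.mean_iterate (f : X → ℝ) (n : ℕ) (e : ZMod 2) :
    D.mean e (D.T^[n] f) = D.mean (e + n) f := by
  induction n generalizing e with
  | zero => simp
  | succ n ih =>
    rw [Function.iterate_succ_apply', D.mean_T, ih]
    congr 1
    push_cast
    ring

omit [DecidableEq X] in
lemma PData.T_sub (f g : X → ℝ) (x : X) :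
    D.T (fun y => f y - g y) x = D.T f x - D.T g x := by
  unfold PData.T
  rw [← sum_sub_distrib]
  exact sum_congr rfl fun y _ => by ring

omit [DecidableEq X] in
/-- functions which depend only on the parity -/
lemma PData.T_par (c : ZMod 2 → ℝ) (x : X) : D.T (fun y => c (D.par y)) x = c (D.par x + 1) := by
  have hx := (mul_pos D.lpos (D.pos x)).ne'
  rw [D.T_eq, div_eq_iff hx]
  have : ∀ y, D.A x y * (D.psi y * c (D.par y)) = (D.A x y * D.psi y) * c (D.par x + 1) := by
    intro y
    by_cases hA : D.A x y = 0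
    · rw [hA]; ring
    · rw [D.flip x y hA]; ring
  simp only [this]
  rw [← sum_mul, D.eig x]
  ring

omit [DecidableEq X] in
lemma PData.iterate_sub_par (f : X → ℝ) (c : ZMod 2 → ℝ) (n : ℕ) (x : X) :
    (D.T^[n] (fun y => f y - c (D.par y))) x = (D.T^[n] f) x - c (D.par x + n) := by
  induction n generalizing x with
  | zero => simp
  | succ n ih =>
    rw [Function.iterate_succ_apply', Function.iterate_succ_apply']
    have e : D.T^[n] (fun y => f y - c (D.par y)) =
        fun y => (D.T^[n] f) y - (fun e : ZMod 2 => c (e + n)) (D.par y) := funext fun y => ih y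
    rw [e, D.T_sub, D.T_par (fun e => c (e + n))]
    congr 2
    push_cast
    ring

/-- contraction -/
lemma PData.contract {K : ℕ} (hpos : ∀ x y, D.par x = D.par y →
      0 < ((Matrix.of D.A) ^ (2 * K)) x y) :
    ∃ ρ : ℝ, 0 ≤ ρ ∧ ρ < 1 ∧ ∀ (g : X → ℝ) (C : ℝ), (∀ e, D.mean e g = 0) → (∀ x, |g x| ≤ C) →
      ∀ x, |(D.T^[2 * K] g) x| ≤ ρ * C := by
  rcases isEmpty_or_nonempty X with hX | hX
  · exact ⟨0, le_rfl, zero_lt_one, fun g C _ _ x => (hX.false x).elim⟩
  set B : X → X → ℝ := fun x y => ((Matrix.of D.A) ^ (2 * K)) x y * D.psi y /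
    (D.lam ^ (2 * K) * D.psi x) with hB
  have hker : ∀ (g : X → ℝ) (x : X), (D.T^[2 * K] g) x = ∑ y, B x y * g y := by
    intro g x
    have h1 := D.pow_mulVec (fun y => D.psi y * g y) (2 * K) x
    have h2 : (fun y => D.psi y * g y / D.psi y) = g := by
      funext y
      have := (D.pos y).ne'
      field_simp
    rw [h2] at h1
    have h3 : ((Matrix.of D.A) ^ (2 * K)).mulVec (fun y => D.psi y * g y) x =
        ∑ y, ((Matrix.of D.A) ^ (2 * K)) x y * (D.psi y * g y) := rfl
    rw [h3] at h1
    have h4 := (mul_pos (pow_pos D.lpos (2 * K)) (D.pos x)).ne'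
    have h5 : (D.T^[2 * K] g) x = (∑ y, ((Matrix.of D.A) ^ (2 * K)) x y * (D.psi y * g y)) /
        (D.lam ^ (2 * K) * D.psi x) := by
      rw [eq_div_iff h4, h1]; ring
    rw [h5, sum_div]
    exact sum_congr rfl fun y _ => by simp only [hB]; ring
  have hBpos : ∀ x y, D.par x = D.par y → 0 < B x y := fun x y hxy =>
    div_pos (mul_pos (hpos x y hxy) (D.pos y)) (mul_pos (pow_pos D.lpos _) (D.pos x))
  have hBone : ∀ x, ∑ y, B x y = 1 := by
    intro x
    have h1 := hker (fun _ => 1) x
    simp only [mul_one] at h1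
    rw [← h1]
    have h2 := D.iterate_sub_par (fun _ => 0) (fun _ => -1) (2 * K) x
    have h3 : (fun y : X => (0 : ℝ) - (fun _ : ZMod 2 => (-1 : ℝ)) (D.par y)) = fun _ => 1 := by
      funext y; simp
    rw [h3] at h2
    rw [h2]
    have h4 : ∀ n : ℕ, D.T^[n] (fun _ => (0 : ℝ)) = fun _ => 0 := by
      intro n
      induction n with
      | zero => rfl
      | succ n ih =>
        rw [Function.iterate_succ_apply', ih]
        funext z
        simp [PData.T]
    rw [h4]
    norm_num
  have hBz : ∀ x y, D.par x ≠ D.par y → B x y = 0 := by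
    intro x y hxy
    have : ((Matrix.of D.A) ^ (2 * K)) x y = 0 := by
      have gen : ∀ n : ℕ, ∀ x y, D.par y ≠ D.par x + n → ((Matrix.of D.A) ^ n) x y = 0 := by
        intro n
        induction n with
        | zero =>
          intro x y h
          rw [pow_zero, Matrix.one_apply, if_neg]
          rintro rfl
          apply h
          simp
        | succ n ih =>
          intro x y h
          rw [pow_succ, Matrix.mul_apply]
          refine sum_eq_zero fun z _ => ?_
          by_cases hz : D.par z = D.par x + n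
          · have hA : D.A z y = 0 := by
              by_contra hA
              apply h
              rw [D.flip z y hA, hz]
              push_cast
              ring
            rw [Matrix.of_apply, hA, mul_zero]
          · rw [ih x z hz, zero_mul]
      apply gen
      have : ((2 * K : ℕ) : ZMod 2) = 0 := by
        rw [ZMod.natCast_eq_zero_iff]
        exact dvd_mul_right 2 K
      rw [this, add_zero]
      exact fun h => hxy h.symm
    simp only [hB, this, zero_mul, zero_div]
  -- the minorization constant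
  obtain ⟨c, hc0, hc⟩ : ∃ c : ℝ, 0 < c ∧ ∀ x y, D.par x = D.par y → c * D.psi y ^ 2 ≤ B x y := by
    set F : X × X → ℝ := fun z => if D.par z.1 = D.par z.2 then B z.1 z.2 / D.psi z.2 ^ 2 else 1
      with hF
    obtain ⟨z, -, hz⟩ := Finset.exists_min_image (univ : Finset (X × X)) F univ_nonempty
    refine ⟨F z, ?_, fun x y hxy => ?_⟩
    · simp only [hF]
      split_ifs with h
      · exact div_pos (hBpos _ _ h) (pow_pos (D.pos _) 2)
      · exact one_pos
    · have h1 := hz (x, y) (mem_univ _)
      have h2 : F (x, y) = B x y / D.psi y ^ 2 := by simp only [hF]; rw [if_pos hxy]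
      rw [h2] at h1
      have h3 := pow_pos (D.pos y) 2
      rwa [le_div_iff₀ h3] at h1
  have hc1 : c ≤ 1 := by
    obtain ⟨x⟩ := hX
    have h1 : ∑ y, (if D.par y = D.par x then c * D.psi y ^ 2 else 0) ≤ ∑ y, B x y := by
      refine sum_le_sum fun y _ => ?_
      split_ifs with h
      · exact hc x y h.symm
      · exact (hBz x y fun h' => h h'.symm).ge
    rw [hBone x] at h1
    have h2 : ∑ y, (if D.par y = D.par x then c * D.psi y ^ 2 else 0) =
        c * ∑ y, (if D.par y = D.par x then D.psi y ^ 2 else 0) := by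
      rw [mul_sum]
      exact sum_congr rfl fun y _ => by split_ifs <;> simp
    rw [h2, D.nrm, mul_one] at h1
    exact h1
  refine ⟨1 - c, by linarith, by linarith, fun g C hg hC x => ?_⟩
  have h1 : (D.T^[2 * K] g) x =
      ∑ y, (B x y - if D.par y = D.par x then c * D.psi y ^ 2 else 0) * g y := by
    rw [hker]
    have h2 : ∀ y, (B x y - if D.par y = D.par x then c * D.psi y ^ 2 else 0) * g y =
        B x y * g y - c * (if D.par y = D.par x then D.psi y ^ 2 * g y else 0) := by
      intro y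
      split_ifs <;> ring
    simp only [h2]
    rw [sum_sub_distrib, ← mul_sum]
    have := hg (D.par x)
    unfold PData.mean at this
    rw [this]
    ring
  have hnn : ∀ y, 0 ≤ B x y - if D.par y = D.par x then c * D.psi y ^ 2 else 0 := by
    intro y
    split_ifs with h
    · linarith [hc x y h.symm]
    · rw [hBz x y fun h' => h h'.symm]; simp
  rw [h1]
  calc |∑ y, (B x y - if D.par y = D.par x then c * D.psi y ^ 2 else 0) * g y|
      ≤ ∑ y, |(B x y - if D.par y = D.par x then c * D.psi y ^ 2 else 0) * g y| :=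
        abs_sum_le_sum_abs _ _
    _ ≤ ∑ y, (B x y - if D.par y = D.par x then c * D.psi y ^ 2 else 0) * C := by
        refine sum_le_sum fun y _ => ?_
        rw [abs_mul, abs_of_nonneg (hnn y)]
        exact mul_le_mul_of_nonneg_left (hC y) (hnn y)
    _ = (1 - c) * C := by
        rw [← sum_mul, sum_sub_distrib, hBone x]
        congr 2
        have h2 : ∑ y, (if D.par y = D.par x then c * D.psi y ^ 2 else 0) =
            c * ∑ y, (if D.par y = D.par x then D.psi y ^ 2 else 0) := by
          rw [mul_sum]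
          exact sum_congr rfl fun y _ => by split_ifs <;> simp
        rw [h2, D.nrm, mul_one]

omit [DecidableEq X] in
lemma PData.abs_iterate_le {f : X → ℝ} {C : ℝ} (hf : ∀ x, |f x| ≤ C) (n : ℕ) (x : X) :
    |(D.T^[n] f) x| ≤ C := by
  induction n generalizing x with
  | zero => exact hf x
  | succ n ih =>
    rw [Function.iterate_succ_apply']
    exact D.abs_T_le ih x

/-- exponential decay of mean zero functions -/
lemma PData.decay {K : ℕ} (hpos : ∀ x y, D.par x = D.par y →
      0 < ((Matrix.of D.A) ^ (2 * K)) x y) (g : X → ℝ) (hg : ∀ e, D.mean e g = 0) (x : X) :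
    Tendsto (fun n => (D.T^[n] g) x) atTop (𝓝 0) := by
  obtain ⟨ρ, h0, h1, hρ⟩ := D.contract hpos
  obtain ⟨C, hC⟩ : ∃ C : ℝ, ∀ y, |g y| ≤ C := by
    refine ⟨∑ y, |g y|, fun y => ?_⟩
    exact single_le_sum (f := fun y => |g y|) (fun y _ => abs_nonneg _) (mem_univ y)
  have hC0 : 0 ≤ C := (abs_nonneg _).trans (hC x)
  have hit : ∀ q : ℕ, ∀ y, |(D.T^[2 * K * q] g) y| ≤ ρ ^ q * C := by
    intro q
    induction q with
    | zero => simpa using hC
    | succ q ih =>
      intro y
      have e : 2 * K * (q + 1) = 2 * K + 2 * K * q := by ring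
      rw [e, Function.iterate_add_apply, pow_succ']
      have := hρ (D.T^[2 * K * q] g) (ρ ^ q * C)
        (fun e => by rw [D.mean_iterate]; exact hg _) ih y
      rw [mul_assoc ρ]
      exact this
  rcases Nat.eq_zero_or_pos K with hK | hK
  · -- degenerate case: `g` vanishes
    have h2 : ∀ y, g y = 0 := by
      intro y
      have hlim : Tendsto (fun q : ℕ => ρ ^ q * C) atTop (𝓝 (0 * C)) :=
        (tendsto_pow_atTop_nhds_zero_of_lt_one h0 h1).mul_const C
      rw [zero_mul] at hlim
      have h3 : ∀ q : ℕ, |g y| ≤ ρ ^ q * C := by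
        intro q
        have := hit q y
        simpa [hK] using this
      exact abs_nonpos_iff.1 (ge_of_tendsto' hlim h3)
    have h4 : ∀ n, |(D.T^[n] g) x| ≤ 0 := fun n =>
      D.abs_iterate_le (C := 0) (fun y => by rw [h2 y, abs_zero]) n x
    have h5 : ∀ n, (D.T^[n] g) x = 0 := fun n => abs_nonpos_iff.1 (h4 n)
    simp only [h5]
    exact tendsto_const_nhds
  · have hb : ∀ n, |(D.T^[n] g) x| ≤ ρ ^ (n / (2 * K)) * C := by
      intro n
      conv_lhs => rw [← Nat.mod_add_div n (2 * K)]
      rw [Function.iterate_add_apply]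
      exact D.abs_iterate_le (hit _) _ x
    have hlim : Tendsto (fun n : ℕ => ρ ^ (n / (2 * K)) * C) atTop (𝓝 (0 * C)) := by
      refine Tendsto.mul_const C ?_
      exact (tendsto_pow_atTop_nhds_zero_of_lt_one h0 h1).comp
        (Nat.tendsto_div_const_atTop (by omega))
    rw [zero_mul] at hlim
    exact squeeze_zero_norm hb hlim

/-- **Convergence of the powers.** -/
theorem PData.tendsto_pow {K : ℕ} (hpos : ∀ x y, D.par x = D.par y →
      0 < ((Matrix.of D.A) ^ (2 * K)) x y) (v : X → ℝ) (x : X) :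
    Tendsto (fun n : ℕ => ((Matrix.of D.A) ^ n).mulVec v x / D.lam ^ n -
      D.psi x * ∑ y, (if D.par y = D.par x + n then D.psi y * v y else 0)) atTop (𝓝 0) := by
  set f : X → ℝ := fun y => v y / D.psi y with hf
  set c : ZMod 2 → ℝ := fun e => D.mean e f with hc
  have hcv : ∀ e, c e = ∑ y, (if D.par y = e then D.psi y * v y else 0) := by
    intro e
    simp only [hc, PData.mean, hf]
    refine sum_congr rfl fun y _ => ?_
    have := (D.pos y).ne'
    split_ifs
    · field_simp
    · rfl
  set g : X → ℝ := fun y => f y - c (D.par y) with hg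
  have hmean : ∀ e, D.mean e g = 0 := by
    intro e
    have h1 : ∀ y, (if D.par y = e then D.psi y ^ 2 * g y else 0) =
        (if D.par y = e then D.psi y ^ 2 * f y else 0) -
          c e * (if D.par y = e then D.psi y ^ 2 else 0) := by
      intro y
      split_ifs with h
      · rw [hg]; simp only; rw [h]; ring
      · ring
    unfold PData.mean
    simp only [h1]
    rw [sum_sub_distrib, ← mul_sum, D.nrm, mul_one]
    exact sub_self _
  have hdec := D.decay hpos g hmean x
  have h2 : ∀ n : ℕ, ((Matrix.of D.A) ^ n).mulVec v x / D.lam ^ n -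
      D.psi x * ∑ y, (if D.par y = D.par x + n then D.psi y * v y else 0) =
      D.psi x * (D.T^[n] g) x := by
    intro n
    have hl := (pow_pos D.lpos n).ne'
    rw [D.pow_mulVec v n x, ← hcv, D.iterate_sub_par f c n x, mul_div_right_comm,
      mul_div_right_comm, div_self hl, one_mul, mul_sub]
  simp only [h2]
  simpa using hdec.const_mul (D.psi x)

/-- convergence along even powers -/
theorem PData.tendsto_pow_even {K : ℕ} (hpos : ∀ x y, D.par x = D.par y →
      0 < ((Matrix.of D.A) ^ (2 * K)) x y) (v : X → ℝ) (x : X) :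
    Tendsto (fun n : ℕ => ((Matrix.of D.A) ^ (2 * n)).mulVec v x / D.lam ^ (2 * n)) atTop
      (𝓝 (D.psi x * ∑ y, (if D.par y = D.par x then D.psi y * v y else 0))) := by
  have h1 := (D.tendsto_pow hpos v x).comp
    (tendsto_id.const_mul_atTop' (by norm_num : 0 < 2) : Tendsto (fun n : ℕ => 2 * n) atTop atTop)
  have h2 : ∀ n : ℕ, ((2 * n : ℕ) : ZMod 2) = 0 := fun n => by
    rw [ZMod.natCast_eq_zero_iff]; exact dvd_mul_right 2 n
  simp only [Function.comp_def, h2, add_zero] at h1
  have h3 := h1.add_const (D.psi x * ∑ y, (if D.par y = D.par x then D.psi y * v y else 0))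
  simpa using h3

/-- convergence along odd powers -/
theorem PData.tendsto_pow_odd {K : ℕ} (hpos : ∀ x y, D.par x = D.par y →
      0 < ((Matrix.of D.A) ^ (2 * K)) x y) (v : X → ℝ) (x : X) :
    Tendsto (fun n : ℕ => ((Matrix.of D.A) ^ (2 * n + 1)).mulVec v x / D.lam ^ (2 * n + 1)) atTop
      (𝓝 (D.psi x * ∑ y, (if D.par y = D.par x + 1 then D.psi y * v y else 0))) := by
  have h0 : Tendsto (fun n : ℕ => 2 * n + 1) atTop atTop :=
    tendsto_atTop_mono (fun n => by omega : ∀ n : ℕ, n ≤ 2 * n + 1) tendsto_id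
  have h1 := (D.tendsto_pow hpos v x).comp h0
  have h2 : ∀ n : ℕ, ((2 * n + 1 : ℕ) : ZMod 2) = 1 := fun n => by
    have : ((2 * n : ℕ) : ZMod 2) = 0 := by
      rw [ZMod.natCast_eq_zero_iff]; exact dvd_mul_right 2 n
    rw [Nat.cast_add, this]; simp
  simp only [Function.comp_def] at h1
  simp only [h2] at h1
  have h3 := h1.add_const (D.psi x * ∑ y, (if D.par y = D.par x + 1 then D.psi y * v y else 0))
  simpa using h3

/-- **Summary**: Perron data and convergence. -/
theorem Bip.exists_pdata_tendsto [Nonempty X] (h : Bip A par K) :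
    ∃ D : PData X, D.A = A ∧ D.par = par ∧ ∀ (v : X → ℝ) (x : X),
      Tendsto (fun n : ℕ => ((Matrix.of A) ^ n).mulVec v x / D.lam ^ n -
        D.psi x * ∑ y, (if par y = par x + n then D.psi y * v y else 0)) atTop (𝓝 0) := by
  obtain ⟨D, hA, hp⟩ := h.exists_pdata
  refine ⟨D, hA, hp, fun v x => ?_⟩
  have hpos : ∀ x y, D.par x = D.par y → 0 < ((Matrix.of D.A) ^ (2 * K)) x y := by
    intro x y hxy
    rw [hp] at hxy
    rw [hA]
    exact h.pos x y hxy
  have := D.tendsto_pow hpos v x
  rw [hA, hp] at this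
  exact this

end pf1

end Vale.Agent.P153.Strip
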